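import Vale.Agent.P017.H49.CardU

/-!
# Dictionary between integers and classes
-/

namespace Vale.Agent.P017.H49

open Module Vale.Agent.P017.H509

/-- the exponents of the characters -/
def eZ (a : ℤ) : ZMod 2 := if a % 4 = 3 then 1 else 0
def oZ (a : ℤ) : ZMod 2 := if a % 8 = 3 ∨ a % 8 = 5 then 1 else 0
def tZ (a : ℤ) : ZMod 2 := if a % 3 = 2 then 1 else 0
def kZ (a : ℤ) : ZMod 2 := if a % 5 = 2 ∨ a % 5 = 3 then 1 else 0
def lZ (p : ℕ) (a : ℤ) : ZMod 2 := if jacobiSym a p = -1 then 1 else 0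

/-- an additive function on a multiplicatively closed set -/
structure AddFn (C : ℤ → Prop) (f : ℤ → ZMod 2) : Prop where
  one_mem : C 1
  mul_mem : ∀ a b, C a → C b → C (a * b)
  map_mul : ∀ a b, C a → C b → f (a * b) = f a + f b

theorem AddFn.map_one {C : ℤ → Prop} {f : ℤ → ZMod 2} (h : AddFn C f) : f 1 = 0 := by
  have := h.map_mul 1 1 h.one_mem h.one_mem
  rw [mul_one] at this
  simpa using this

theorem addFn_e : AddFn (fun a => a % 2 = 1) eZ where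
  one_mem := by norm_num
  mul_mem a b ha hb := by rw [Int.mul_emod, ha, hb]; norm_num
  map_mul a b ha hb := by
    have h1 : a % 4 = 1 ∨ a % 4 = 3 := by omega
    have h2 : b % 4 = 1 ∨ b % 4 = 3 := by omega
    unfold eZ
    rw [Int.mul_emod]
    rcases h1 with h1 | h1 <;> rcases h2 with h2 | h2 <;> rw [h1, h2] <;> decide

theorem addFn_o : AddFn (fun a => a % 2 = 1) oZ where
  one_mem := by norm_num
  mul_mem a b ha hb := by rw [Int.mul_emod, ha, hb]; norm_num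
  map_mul a b ha hb := by
    have h1 : a % 8 = 1 ∨ a % 8 = 3 ∨ a % 8 = 5 ∨ a % 8 = 7 := by omega
    have h2 : b % 8 = 1 ∨ b % 8 = 3 ∨ b % 8 = 5 ∨ b % 8 = 7 := by omega
    unfold oZ
    rw [Int.mul_emod]
    rcases h1 with h1 | h1 | h1 | h1 <;> rcases h2 with h2 | h2 | h2 | h2 <;> rw [h1, h2] <;>
      decide

theorem addFn_t : AddFn (fun a => a % 3 ≠ 0) tZ where
  one_mem := by norm_num
  mul_mem a b ha hb := by
    have h1 : a % 3 = 1 ∨ a % 3 = 2 := by omega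
    have h2 : b % 3 = 1 ∨ b % 3 = 2 := by omega
    rw [Int.mul_emod]
    rcases h1 with h1 | h1 <;> rcases h2 with h2 | h2 <;> rw [h1, h2] <;> decide
  map_mul a b ha hb := by
    have h1 : a % 3 = 1 ∨ a % 3 = 2 := by omega
    have h2 : b % 3 = 1 ∨ b % 3 = 2 := by omega
    unfold tZ
    rw [Int.mul_emod]
    rcases h1 with h1 | h1 <;> rcases h2 with h2 | h2 <;> rw [h1, h2] <;> decide

theorem addFn_k : AddFn (fun a => a % 5 ≠ 0) kZ where
  one_mem := by norm_num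
  mul_mem a b ha hb := by
    have h1 : a % 5 = 1 ∨ a % 5 = 2 ∨ a % 5 = 3 ∨ a % 5 = 4 := by omega
    have h2 : b % 5 = 1 ∨ b % 5 = 2 ∨ b % 5 = 3 ∨ b % 5 = 4 := by omega
    rw [Int.mul_emod]
    rcases h1 with h1 | h1 | h1 | h1 <;> rcases h2 with h2 | h2 | h2 | h2 <;> rw [h1, h2] <;>
      decide
  map_mul a b ha hb := by
    have h1 : a % 5 = 1 ∨ a % 5 = 2 ∨ a % 5 = 3 ∨ a % 5 = 4 := by omega
    have h2 : b % 5 = 1 ∨ b % 5 = 2 ∨ b % 5 = 3 ∨ b % 5 = 4 := by omega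
    unfold kZ
    rw [Int.mul_emod]
    rcases h1 with h1 | h1 | h1 | h1 <;> rcases h2 with h2 | h2 | h2 | h2 <;> rw [h1, h2] <;>
      decide

theorem addFn_l {p : ℕ} (hp : p.Prime) : AddFn (fun a => ¬ (p : ℤ) ∣ a) (lZ p) where
  one_mem h := by
    have : (p : ℤ) ∣ ((1 : ℕ) : ℤ) := by exact_mod_cast h
    rw [Int.natCast_dvd_natCast] at this
    exact hp.one_lt.ne' (Nat.dvd_one.mp this)
  mul_mem a b ha hb h :=
    ((Nat.prime_iff_prime_int.mp hp).dvd_or_dvd h).elim ha hb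
  map_mul a b ha hb := by
    have key : ∀ c : ℤ, ¬ (p : ℤ) ∣ c → jacobiSym c p = 1 ∨ jacobiSym c p = -1 := by
      intro c hc
      apply jacobiSym.eq_one_or_neg_one
      rw [Int.gcd_comm, Int.gcd_eq_natAbs, Int.natAbs_natCast]
      exact (Nat.Prime.coprime_iff_not_dvd hp).mpr (fun h => hc (Int.natCast_dvd.mpr h))
    unfold lZ
    rw [jacobiSym.mul_left]
    have h2 : (1 : ZMod 2) + 1 = 0 := by decide
    rcases key a ha with h1 | h1 <;> rcases key b hb with h3 | h3 <;> rw [h1, h3] <;> norm_num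
    exact h2.symm

/-- power with exponent in `ZMod 2` -/
def pw (z : ZMod 2) (a : ℤ) : ℤ := if z = 1 then a else 1

theorem pw_zero (a : ℤ) : pw 0 a = 1 := rfl
theorem pw_one (a : ℤ) : pw 1 a = a := rfl

theorem zc (z : ZMod 2) : z = 0 ∨ z = 1 := by revert z; decide

theorem AddFn.pw_mem {C : ℤ → Prop} {f : ℤ → ZMod 2} (h : AddFn C f) (z : ZMod 2) {a : ℤ}
    (ha : C a) : C (pw z a) := by
  rcases zc z with rfl | rfl
  · rw [pw_zero]; exact h.one_mem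
  · rw [pw_one]; exact ha

theorem AddFn.map_pw {C : ℤ → Prop} {f : ℤ → ZMod 2} (h : AddFn C f) (z : ZMod 2) (a : ℤ) :
    f (pw z a) = z * f a := by
  rcases zc z with rfl | rfl
  · rw [pw_zero, h.map_one, zero_mul]
  · rw [pw_one, one_mul]

theorem AddFn.prod_mem {C : ℤ → Prop} {f : ℤ → ZMod 2} (h : AddFn C f) {ι : Type*}
    (s : Finset ι) (q : ι → ℤ) (hq : ∀ i ∈ s, C (q i)) : C (∏ i ∈ s, q i) := by
  classical
  induction s using Finset.induction_on with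
  | empty => simpa using h.one_mem
  | insert a s ha ih =>
    rw [Finset.prod_insert ha]
    exact h.mul_mem _ _ (hq a (Finset.mem_insert_self a s))
      (ih fun i hi => hq i (Finset.mem_insert_of_mem hi))

theorem AddFn.map_prod {C : ℤ → Prop} {f : ℤ → ZMod 2} (h : AddFn C f) {ι : Type*}
    (s : Finset ι) (q : ι → ℤ) (hq : ∀ i ∈ s, C (q i)) : f (∏ i ∈ s, q i) = ∑ i ∈ s, f (q i) := by
  classical
  induction s using Finset.induction_on with
  | empty => simpa using h.map_one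
  | insert a s ha ih =>
    rw [Finset.prod_insert ha, Finset.sum_insert ha,
      h.map_mul _ _ (hq a (Finset.mem_insert_self a s))
        (h.prod_mem s q fun i hi => hq i (Finset.mem_insert_of_mem hi)),
      ih fun i hi => hq i (Finset.mem_insert_of_mem hi)]

theorem cl_e (p : ℕ) : (cl p).1 = eZ p := by
  simp only [cl, eZ]
  congr 1
  exact propext ⟨fun h => by omega, fun h => by omega⟩

theorem cl_o (p : ℕ) : (cl p).2.1 = oZ p := by
  simp only [cl, oZ]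
  congr 1
  exact propext ⟨fun h => by omega, fun h => by omega⟩

theorem cl_t (p : ℕ) : (cl p).2.2.1 = tZ p := by
  simp only [cl, tZ]
  congr 1
  exact propext ⟨fun h => by omega, fun h => by omega⟩

theorem cl_k (p : ℕ) : (cl p).2.2.2 = kZ p := by
  simp only [cl, kZ]
  congr 1
  exact propext ⟨fun h => by omega, fun h => by omega⟩

theorem lg_l (a p : ℕ) : lg a p = lZ p a := rfl

section

variable {m : ℕ}

/-- a prime of `m` is prime to `30` -/
theorem prime_ne (hm : m.Coprime 30) (q : m.primeFactors) :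
    (q : ℕ).Prime ∧ (q : ℕ) ≠ 2 ∧ (q : ℕ) ≠ 3 ∧ (q : ℕ) ≠ 5 := by
  have h1 := Nat.dvd_of_mem_primeFactors q.2
  have h2 : ∀ k, (q : ℕ) = k → k ∣ 30 → k = 1 := by
    intro k hk hk'
    rw [hk] at h1
    exact Nat.Coprime.eq_one_of_dvd (Nat.Coprime.coprime_dvd_left h1 hm) hk'
  refine ⟨Nat.prime_of_mem_primeFactors q.2, fun h => ?_, fun h => ?_, fun h => ?_⟩
  · have := h2 2 h (by norm_num); omega
  · have := h2 3 h (by norm_num); omega
  · have := h2 5 h (by norm_num); omega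

theorem mod_facts (hm : m.Coprime 30) (q : m.primeFactors) :
    ((q : ℕ) : ℤ) % 2 = 1 ∧ ((q : ℕ) : ℤ) % 3 ≠ 0 ∧ ((q : ℕ) : ℤ) % 5 ≠ 0 := by
  obtain ⟨hp, h2, h3, h5⟩ := prime_ne hm q
  refine ⟨?_, ?_, ?_⟩
  · rcases hp.eq_two_or_odd with h | h
    · exact absurd h h2
    · omega
  · intro h
    have : 3 ∣ (q : ℕ) := by omega
    exact h3 ((Nat.prime_dvd_prime_iff_eq Nat.prime_three hp).mp this).symm
  · intro h
    have : 5 ∣ (q : ℕ) := by omega
    exact h5 ((Nat.prime_dvd_prime_iff_eq Nat.prime_five hp).mp this).symm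

/-- the part prime to `30` -/
def pr0 (x : m.primeFactors → ZMod 2) : ℤ := ∏ q : m.primeFactors, pw (x q) (q : ℕ)

/-- the integer -/
def nb (u : W m) : ℤ := pw u.1 (-1) * pw u.2.1.1 2 * pw u.2.1.2.1 3 * pw u.2.1.2.2 5 * pr0 u.2.2

def nb2 (u : W m) : ℤ := pw u.1 (-1) * pw u.2.1.2.1 3 * pw u.2.1.2.2 5 * pr0 u.2.2
def nb3 (u : W m) : ℤ := pw u.1 (-1) * pw u.2.1.1 2 * pw u.2.1.2.2 5 * pr0 u.2.2
def nb5 (u : W m) : ℤ := pw u.1 (-1) * pw u.2.1.1 2 * pw u.2.1.2.1 3 * pr0 u.2.2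
def nbp (p : m.primeFactors) (u : W m) : ℤ :=
  pw u.1 (-1) * pw u.2.1.1 2 * pw u.2.1.2.1 3 * pw u.2.1.2.2 5 *
    ∏ q : m.primeFactors, if q = p then 1 else pw (u.2.2 q) (q : ℕ)

theorem nb_two (u : W m) : nb u = pw u.2.1.1 2 * nb2 u := by unfold nb nb2; ring
theorem nb_three (u : W m) : nb u = pw u.2.1.2.1 3 * nb3 u := by unfold nb nb3; ring
theorem nb_five (u : W m) : nb u = pw u.2.1.2.2 5 * nb5 u := by unfold nb nb5; ring
theorem nb_p (p : m.primeFactors) (u : W m) : nb u = pw (u.2.2 p) (p : ℕ) * nbp p u := by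
  have : pr0 u.2.2 = pw (u.2.2 p) (p : ℕ) *
      ∏ q : m.primeFactors, if q = p then 1 else pw (u.2.2 q) (q : ℕ) := by
    unfold pr0
    rw [← Finset.mul_prod_erase Finset.univ _ (Finset.mem_univ p)]
    congr 1
    rw [← Finset.mul_prod_erase Finset.univ (fun q : m.primeFactors =>
      if q = p then 1 else pw (u.2.2 q) (q : ℕ)) (Finset.mem_univ p), if_pos rfl, one_mul]
    refine Finset.prod_congr rfl fun q hq => ?_
    rw [if_neg (Finset.ne_of_mem_erase hq)]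
  unfold nb nbp
  rw [this]; ring

theorem AddFn.map4 {C : ℤ → Prop} {f : ℤ → ZMod 2} (h : AddFn C f) {a b c d : ℤ} (ha : C a)
    (hb : C b) (hc : C c) (hd : C d) : C (a * b * c * d) ∧ f (a * b * c * d) = f a + f b + f c + f d := by
  have h1 := h.mul_mem _ _ ha hb
  have h2 := h.mul_mem _ _ h1 hc
  refine ⟨h.mul_mem _ _ h2 hd, ?_⟩
  rw [h.map_mul _ _ h2 hd, h.map_mul _ _ h1 hc, h.map_mul _ _ ha hb]

theorem AddFn.map5 {C : ℤ → Prop} {f : ℤ → ZMod 2} (h : AddFn C f) {a b c d e : ℤ} (ha : C a)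
    (hb : C b) (hc : C c) (hd : C d) (he : C e) :
    C (a * b * c * d * e) ∧ f (a * b * c * d * e) = f a + f b + f c + f d + f e := by
  obtain ⟨h1, h2⟩ := h.map4 ha hb hc hd
  refine ⟨h.mul_mem _ _ h1 he, ?_⟩
  rw [h.map_mul _ _ h1 he, h2]

theorem AddFn.map_pr0 {C : ℤ → Prop} {f : ℤ → ZMod 2} (h : AddFn C f) (x : m.primeFactors → ZMod 2)
    (hq : ∀ q : m.primeFactors, C (q : ℕ)) : C (pr0 x) ∧ f (pr0 x) = ∑ q, x q * f (q : ℕ) := by
  unfold pr0
  refine ⟨h.prod_mem _ _ fun q _ => h.pw_mem _ (hq q), ?_⟩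
  rw [h.map_prod _ _ fun q _ => h.pw_mem _ (hq q)]
  exact Finset.sum_congr rfl fun q _ => h.map_pw _ _

theorem eps_phi (hm : m.Coprime 30) (u : W m) : nb2 u % 2 = 1 ∧ eps (fin3 (phi m u)) = eZ (nb2 u) := by
  obtain ⟨h1, h2⟩ := addFn_e.map_pr0 u.2.2 (fun q => (mod_facts hm q).1)
  obtain ⟨h3, h4⟩ := addFn_e.map4 (a := pw u.1 (-1)) (b := pw u.2.1.2.1 3) (c := pw u.2.1.2.2 5)
    (addFn_e.pw_mem _ (by norm_num)) (addFn_e.pw_mem _ (by norm_num))
    (addFn_e.pw_mem _ (by norm_num)) h1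
  refine ⟨h3, ?_⟩
  unfold nb2
  rw [h4, h2, addFn_e.map_pw, addFn_e.map_pw, addFn_e.map_pw]
  simp only [phi, LinearMap.coe_mk, AddHom.coe_mk, sum_cl, fin3, eps, cl_e]
  rw [show eZ (-1) = 1 from rfl, show eZ 3 = 1 from rfl, show eZ 5 = 0 from rfl]
  ring

theorem om_phi (hm : m.Coprime 30) (u : W m) : om (fin3 (phi m u)) = oZ (nb2 u) := by
  obtain ⟨h1, h2⟩ := addFn_o.map_pr0 u.2.2 (fun q => (mod_facts hm q).1)
  obtain ⟨h3, h4⟩ := addFn_o.map4 (a := pw u.1 (-1)) (b := pw u.2.1.2.1 3) (c := pw u.2.1.2.2 5)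
    (addFn_o.pw_mem _ (by norm_num)) (addFn_o.pw_mem _ (by norm_num))
    (addFn_o.pw_mem _ (by norm_num)) h1
  unfold nb2
  rw [h4, h2, addFn_o.map_pw, addFn_o.map_pw, addFn_o.map_pw]
  simp only [phi, LinearMap.coe_mk, AddHom.coe_mk, sum_cl, fin3, om, cl_o]
  rw [show oZ (-1) = 0 from rfl, show oZ 3 = 1 from rfl, show oZ 5 = 1 from rfl]
  ring

theorem ta_phi (hm : m.Coprime 30) (u : W m) : nb3 u % 3 ≠ 0 ∧ ta (fin3 (phi m u)) = tZ (nb3 u) := by
  obtain ⟨h1, h2⟩ := addFn_t.map_pr0 u.2.2 (fun q => (mod_facts hm q).2.1)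
  obtain ⟨h3, h4⟩ := addFn_t.map4 (a := pw u.1 (-1)) (b := pw u.2.1.1 2) (c := pw u.2.1.2.2 5)
    (addFn_t.pw_mem _ (by norm_num)) (addFn_t.pw_mem _ (by norm_num))
    (addFn_t.pw_mem _ (by norm_num)) h1
  refine ⟨h3, ?_⟩
  unfold nb3
  rw [h4, h2, addFn_t.map_pw, addFn_t.map_pw, addFn_t.map_pw]
  simp only [phi, LinearMap.coe_mk, AddHom.coe_mk, sum_cl, fin3, ta, cl_t]
  rw [show tZ (-1) = 1 from rfl, show tZ 2 = 1 from rfl, show tZ 5 = 1 from rfl]
  ring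

theorem ka_phi (hm : m.Coprime 30) (u : W m) : nb5 u % 5 ≠ 0 ∧ ka (fin3 (phi m u)) = kZ (nb5 u) := by
  obtain ⟨h1, h2⟩ := addFn_k.map_pr0 u.2.2 (fun q => (mod_facts hm q).2.2)
  obtain ⟨h3, h4⟩ := addFn_k.map4 (a := pw u.1 (-1)) (b := pw u.2.1.1 2) (c := pw u.2.1.2.1 3)
    (addFn_k.pw_mem _ (by norm_num)) (addFn_k.pw_mem _ (by norm_num))
    (addFn_k.pw_mem _ (by norm_num)) h1
  refine ⟨h3, ?_⟩
  unfold nb5
  rw [h4, h2, addFn_k.map_pw, addFn_k.map_pw, addFn_k.map_pw]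
  simp only [phi, LinearMap.coe_mk, AddHom.coe_mk, sum_cl, fin3, ka, cl_k]
  rw [show kZ (-1) = 0 from rfl, show kZ 2 = 1 from rfl, show kZ 3 = 1 from rfl]
  ring

end

end Vale.Agent.P017.H49
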