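import Vale.Agent.P017.H49.Iso

/-!
# The dual Selmer type group `U` is not larger than `V`
-/

namespace Vale.Agent.P017.H49

open Module Vale.Agent.P017.H509

variable (e : S) (m : ℕ)

/-- the exponent of the symbol at `p` of `d` -/
def chid (p : m.primeFactors) : ZMod 2 := chi m p (0, e, fun _ => 1)

/-- the local conditions -/
def psi : (Lsub e (cl m) × (m.primeFactors → ZMod 2)) →ₗ[ZMod 2] H m where
  toFun v := (0, v.1, fun p => (v.2 p, v.2 p * chid e m p))
  map_add' := by
    intro v w
    refine Prod.ext ?_ (Prod.ext ?_ ?_)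
    · simp
    · simp
    · funext p
      simp only [Prod.snd_add, Pi.add_apply, add_mul]
      rfl
  map_smul' := by
    intro z v
    refine Prod.ext ?_ (Prod.ext ?_ ?_)
    · simp
    · simp
    · funext p
      simp only [Prod.smul_snd, Pi.smul_apply, smul_eq_mul, RingHom.id_apply, mul_assoc]
      rfl

theorem psi_inj : Function.Injective (psi e m) := by
  rintro ⟨l, x⟩ ⟨l', x'⟩ h
  simp only [psi, LinearMap.coe_mk, AddHom.coe_mk, Prod.mk.injEq] at h
  obtain ⟨-, h2, h3⟩ := h
  have h4 : x = x' := by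
    funext p
    exact (Prod.mk.inj (congrFun h3 p)).1
  rw [Subtype.ext h2, h4]

/-- the maximal isotropic subspace -/
def A : Submodule (ZMod 2) (H m) := LinearMap.range (psi e m)

/-- the dual Selmer type group -/
def U : Submodule (ZMod 2) (W m) := ((B m).orthogonal (A e m)).comap (phi m)

theorem finrank_W : finrank (ZMod 2) (W m) = 4 + m.primeFactors.card := by
  simp only [W, S, finrank_prod, finrank_self, finrank_fintype_fun_eq_card, Fintype.card_coe]
  omega

theorem finrank_H : finrank (ZMod 2) (H m) = 2 * (4 + m.primeFactors.card) := by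
  simp only [H, S, G, finrank_prod, finrank_self, finrank_pi_fintype, Finset.sum_const,
    Finset.card_univ, Fintype.card_coe, smul_eq_mul]
  omega

theorem card_L : ∀ (e : S) (c : G), Good e c →
    ((Finset.univ : Finset (S × G)).filter fun v => inL e c v.1 v.2).card = 16 := by
  decide +kernel

variable {e m}

theorem finrank_L (c : G) (h : Good e c) : finrank (ZMod 2) (Lsub e c) = 4 := by
  have h1 := Module.natCard_eq_pow_finrank (K := ZMod 2) (V := Lsub e c)
  have h2 : Nat.card (Lsub e c) = 16 := by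
    rw [← card_L e c h, ← SetLike.coe_sort_coe, Nat.card_coe_set_eq, ← Set.ncard_coe_finset]
    congr 1
    ext v
    simp [Lsub]
  rw [Nat.card_zmod, h2] at h1
  exact (Nat.pow_right_injective (le_refl 2) (show 2 ^ 4 = 2 ^ _ from h1)).symm

theorem finrank_A (h : Good e (cl m)) : finrank (ZMod 2) (A e m) = 4 + m.primeFactors.card := by
  rw [A, LinearMap.finrank_range_of_inj (psi_inj e m), finrank_prod, finrank_L _ h,
    finrank_fintype_fun_eq_card, Fintype.card_coe]

/-- the classes in `A` come from `V` -/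
theorem mem_V_of_phi {u : W m} (h : phi m u ∈ A e m) : u.1 = 0 ∧ (u.2.1, u.2.2) ∈ V e m := by
  obtain ⟨⟨l, a⟩, hv⟩ := h
  simp only [psi, phi, LinearMap.coe_mk, AddHom.coe_mk, Prod.mk.injEq] at hv
  obtain ⟨h1, h2, h3⟩ := hv
  refine ⟨h1.symm, ?_⟩
  have hx : a = u.2.2 := by
    funext p
    exact (Prod.mk.inj (congrFun h3 p)).1
  have hc : ∀ p, a p * chid e m p = chi m p u := fun p => (Prod.mk.inj (congrFun h3 p)).2
  refine ⟨?_, ?_⟩
  · rw [SetLike.mem_coe, Submodule.mem_iInf]
    intro p
    rw [LinearMap.mem_ker]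
    have := hc p
    rw [hx] at this
    have hz : ∀ z : ZMod 2, z + z = 0 := by decide
    unfold chid at this
    simp only [chi, LinearMap.coe_mk, AddHom.coe_mk, ← h1, zero_mul, zero_add, one_mul] at this
    simp only [hp, LinearMap.coe_mk, AddHom.coe_mk]
    rw [this]
    exact hz _
  · show locl m (u.2.1, u.2.2) ∈ Lsub e (cl m)
    have : locl m (u.2.1, u.2.2) = l := by rw [h2]; rfl
    rw [this]
    exact l.2

/-- **Duality** -/
theorem card_U_le (hm : m.Coprime 30) (h : Good e (cl m)) : Nat.card (U e m) ≤ Nat.card (V e m) := by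
  have h1 := dual_ineq (B m) B_nondeg (phi m) (phi_inj m) (fun u v => iso hm u v)
    (by rw [finrank_H, finrank_W]) (A e m) (by rw [finrank_A h, finrank_W])
  have h2 : Nat.card (U e m) ≤ Nat.card ((A e m).comap (phi m)) := by
    rw [Module.natCard_eq_pow_finrank (K := ZMod 2) (V := U e m),
      Module.natCard_eq_pow_finrank (K := ZMod 2) (V := (A e m).comap (phi m)), Nat.card_zmod]
    exact Nat.pow_le_pow_right (by norm_num) h1
  refine h2.trans ?_
  refine Nat.card_le_card_of_injective
    (fun u : (A e m).comap (phi m) => (⟨(u.1.2.1, u.1.2.2), (mem_V_of_phi u.2).2⟩ : V e m)) ?_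
  rintro ⟨⟨t, s, x⟩, hu⟩ ⟨⟨t', s', x'⟩, hu'⟩ heq
  have ht := (mem_V_of_phi hu).1
  have ht' := (mem_V_of_phi hu').1
  simp only [Subtype.mk.injEq, Prod.mk.injEq] at heq ht ht' ⊢
  exact ⟨by rw [ht, ht'], heq⟩

end Vale.Agent.P017.H49
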