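import Vale.Agent.P017.H49.Bits

/-!
# The symbols at the primes of `m`
-/

namespace Vale.Agent.P017.H49

open Module Vale.Agent.P017.H509

theorem lZ_neg_one {p : ℕ} (hp : p % 2 = 1) : lZ p (-1) = eZ p := by
  unfold lZ eZ
  rw [jacobiSym.at_neg_one (Nat.odd_iff.mpr hp)]
  have : p % 4 = 1 ∨ p % 4 = 3 := by omega
  rcases this with h | h
  · rw [ZMod.χ₄_nat_one_mod_four h, if_neg (by norm_num), if_neg (by omega)]
  · rw [ZMod.χ₄_nat_three_mod_four h, if_pos rfl, if_pos (by omega)]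

theorem lZ_two {p : ℕ} (hp : p % 2 = 1) : lZ p 2 = oZ p := by
  have hχ : ZMod.χ₈ (p : ZMod 8) = if p % 8 = 3 ∨ p % 8 = 5 then -1 else 1 := by
    rw [ZMod.χ₈_nat_eq_if_mod_eight]
    split_ifs <;> omega
  unfold lZ oZ
  rw [jacobiSym.at_two (Nat.odd_iff.mpr hp), hχ]
  by_cases h : p % 8 = 3 ∨ p % 8 = 5
  · rw [if_pos h, if_pos rfl, if_pos (by omega)]
  · rw [if_neg h, if_neg (by norm_num), if_neg (by omega)]

theorem J3 {p : ℕ} (h3 : p % 3 ≠ 0) : jacobiSym p 3 = if p % 3 = 2 then -1 else 1 := by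
  have h1 : p % 3 = 1 ∨ p % 3 = 2 := by omega
  rw [jacobiSym.mod_left]
  rcases h1 with h | h
  · rw [if_neg (by omega), show ((p : ℕ) : ℤ) % ((3 : ℕ) : ℤ) = 1 by omega]
    exact jacobiSym.one_left 3
  · rw [if_pos h, show ((p : ℕ) : ℤ) % ((3 : ℕ) : ℤ) = 2 by omega]
    norm_num

theorem J5 {p : ℕ} (h5 : p % 5 ≠ 0) : jacobiSym p 5 = if p % 5 = 2 ∨ p % 5 = 3 then -1 else 1 := by
  have h1 : p % 5 = 1 ∨ p % 5 = 2 ∨ p % 5 = 3 ∨ p % 5 = 4 := by omega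
  rw [jacobiSym.mod_left]
  rcases h1 with h | h | h | h
  · rw [if_neg (by omega), show ((p : ℕ) : ℤ) % ((5 : ℕ) : ℤ) = 1 by omega]
    exact jacobiSym.one_left 5
  · rw [if_pos (by omega), show ((p : ℕ) : ℤ) % ((5 : ℕ) : ℤ) = 2 by omega]
    norm_num
  · rw [if_pos (by omega), show ((p : ℕ) : ℤ) % ((5 : ℕ) : ℤ) = 3 by omega]
    norm_num
  · rw [if_neg (by omega), show ((p : ℕ) : ℤ) % ((5 : ℕ) : ℤ) = 4 by omega]
    norm_num

theorem lZ_three {p : ℕ} (hp : p % 2 = 1) (h3 : p % 3 ≠ 0) : lZ p 3 = tZ p + eZ p := by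
  unfold lZ tZ eZ
  have : p % 4 = 1 ∨ p % 4 = 3 := by omega
  rcases this with h | h
  · have hr := jacobiSym.quadratic_reciprocity_one_mod_four h (b := 3) (by decide)
    push_cast at hr
    rw [← hr, J3 h3, if_neg (show ¬ (p : ℤ) % 4 = 3 by omega), add_zero]
    by_cases h2 : p % 3 = 2
    · rw [if_pos h2, if_pos rfl, if_pos (by omega)]
    · rw [if_neg h2, if_neg (by norm_num), if_neg (by omega)]
  · have hr := jacobiSym.quadratic_reciprocity_three_mod_four h (b := 3) (by norm_num)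
    have hr' : jacobiSym 3 p = - jacobiSym p 3 := by
      push_cast at hr
      rw [hr]; ring
    rw [hr', J3 h3, if_pos (show (p : ℤ) % 4 = 3 by omega)]
    by_cases h2 : p % 3 = 2
    · rw [if_pos h2, if_neg (by norm_num), if_pos (show (p : ℤ) % 3 = 2 by omega)]; decide
    · rw [if_neg h2, if_pos rfl, if_neg (show ¬ (p : ℤ) % 3 = 2 by omega)]; decide

theorem lZ_five {p : ℕ} (hp : p % 2 = 1) (h5 : p % 5 ≠ 0) : lZ p 5 = kZ p := by
  unfold lZ kZ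
  have hr := jacobiSym.quadratic_reciprocity_one_mod_four' (a := p) (b := 5)
    (Nat.odd_iff.mpr hp) (by norm_num)
  push_cast at hr
  rw [← hr, J5 h5]
  by_cases h2 : p % 5 = 2 ∨ p % 5 = 3
  · rw [if_pos h2, if_pos rfl, if_pos (by omega)]
  · rw [if_neg h2, if_neg (by norm_num), if_neg (by omega)]

variable {m : ℕ}

theorem pr_eq (hm : m.Coprime 30) (s : S) (p : m.primeFactors) :
    pr s (cl p) = s.1 * lZ p 2 + s.2.1 * lZ p 3 + s.2.2 * lZ p 5 := by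
  obtain ⟨h1, h2, h3⟩ := mod_facts hm p
  rw [lZ_two (by omega), lZ_three (by omega) (by omega), lZ_five (by omega) (by omega), pr, cl_o,
    cl_t, cl_e, cl_k]

theorem ndvd_small (hm : m.Coprime 30) (p : m.primeFactors) :
    ¬ ((p : ℕ) : ℤ) ∣ -1 ∧ ¬ ((p : ℕ) : ℤ) ∣ 2 ∧ ¬ ((p : ℕ) : ℤ) ∣ 3 ∧ ¬ ((p : ℕ) : ℤ) ∣ 5 := by
  obtain ⟨hp, h2, h3, h5⟩ := prime_ne hm p
  refine ⟨?_, ?_, ?_, ?_⟩
  · rw [Int.dvd_neg]
    exact (addFn_l hp).one_mem
  · intro h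
    exact h2 ((Nat.prime_dvd_prime_iff_eq hp Nat.prime_two).mp (by exact_mod_cast h))
  · intro h
    exact h3 ((Nat.prime_dvd_prime_iff_eq hp Nat.prime_three).mp (by exact_mod_cast h))
  · intro h
    exact h5 ((Nat.prime_dvd_prime_iff_eq hp Nat.prime_five).mp (by exact_mod_cast h))

theorem chi_phi (hm : m.Coprime 30) (p : m.primeFactors) (u : W m) :
    ¬ ((p : ℕ) : ℤ) ∣ nbp p u ∧ chi m p u = lZ p (nbp p u) := by
  obtain ⟨hp, h2, h3, h5⟩ := prime_ne hm p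
  obtain ⟨n1, n2, n3, n5⟩ := ndvd_small hm p
  have hA := addFn_l hp
  have hq : ∀ q : m.primeFactors, ¬ ((p : ℕ) : ℤ) ∣ (if q = p then 1 else pw (u.2.2 q) (q : ℕ)) := by
    intro q
    split_ifs with h
    · exact hA.one_mem
    · apply hA.pw_mem
      intro h'
      have hqp := (prime_ne hm q).1
      exact h (Subtype.ext ((Nat.prime_dvd_prime_iff_eq hp hqp).mp (by exact_mod_cast h')).symm)
  obtain ⟨h6, h7⟩ := hA.map5 (a := pw u.1 (-1)) (b := pw u.2.1.1 2) (c := pw u.2.1.2.1 3)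
    (d := pw u.2.1.2.2 5) (hA.pw_mem _ n1) (hA.pw_mem _ n2) (hA.pw_mem _ n3) (hA.pw_mem _ n5)
    (hA.prod_mem Finset.univ _ fun q _ => hq q)
  refine ⟨h6, ?_⟩
  unfold nbp
  rw [h7, hA.map_pw, hA.map_pw, hA.map_pw, hA.map_pw, hA.map_prod _ _ fun q _ => hq q]
  have h8 : (∑ q, if q = p then 0 else u.2.2 q * lg q p) =
      ∑ q, lZ p (if q = p then 1 else pw (u.2.2 q) ((q : ℕ) : ℤ)) := by
    refine Finset.sum_congr rfl fun q _ => ?_
    split_ifs
    · exact hA.map_one.symm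
    · rw [hA.map_pw, lg_l]
  rw [← h8, lZ_neg_one (by have := (mod_facts hm p).1; omega), ← cl_e]
  simp only [chi, LinearMap.coe_mk, AddHom.coe_mk, pr_eq hm]
  ring

end Vale.Agent.P017.H49
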