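import Vale.Agent.P017.H49.Rep
import Vale.Agent.P017.H185.Jac2

/-!
# The descents
-/

namespace Vale.Agent.P017.H49

open Module Vale.Agent.P017.H509 Vale.Agent.P017.H185

theorem lZ_sq {p : ℕ} (hp : p.Prime) {a : ℤ} (ha : ¬ (p : ℤ) ∣ a) (h : IsSquare (a : ZMod p)) :
    lZ p a = 0 := by
  have := Fact.mk hp
  unfold lZ
  rw [← jacobiSym.legendreSym.to_jacobiSym, (legendreSym.eq_one_iff p (ne_iff.mpr ha)).mpr h,
    if_neg (by norm_num)]

theorem tZ_sq {a : ℤ} (ha : ¬ ((3 : ℕ) : ℤ) ∣ a) (h : IsSquare (a : ZMod 3)) : tZ a = 0 := by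
  have key : ∀ c : ZMod 3, c ≠ 0 → IsSquare c → c = 1 := by decide
  have h1 := key _ (ne_iff.mpr ha) h
  have h3 := (ZMod.intCast_eq_intCast_iff_dvd_sub a 1 3).mp (by exact_mod_cast h1)
  push_cast at h3
  unfold tZ
  rw [if_neg (by omega)]

theorem kZ_sq {a : ℤ} (ha : ¬ ((5 : ℕ) : ℤ) ∣ a) (h : IsSquare (a : ZMod 5)) : kZ a = 0 := by
  have key : ∀ c : ZMod 5, c ≠ 0 → IsSquare c → c = 1 ∨ c = 4 := by decide
  unfold kZ
  rcases key _ (ne_iff.mpr ha) h with h1 | h1
  · have h3 := (ZMod.intCast_eq_intCast_iff_dvd_sub a 1 5).mp (by exact_mod_cast h1)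
    push_cast at h3
    rw [if_neg (by omega)]
  · have h3 := (ZMod.intCast_eq_intCast_iff_dvd_sub a 4 5).mp (by exact_mod_cast h1)
    push_cast at h3
    rw [if_neg (by omega)]

section

variable {m : ℕ} {e : S}

theorem fin3_D (hsq : Squarefree m) (hm : m.Coprime 30) :
    fin3 (phi m (1, e, fun _ => 1)) = (1, e, cl m) := by
  simp only [phi, LinearMap.coe_mk, AddHom.coe_mk, fin3]
  rw [sum_cl_m hsq hm]

theorem b2_h2 (c : G) (s : S) (g : G) : b2 (0, s, g) (1, e, c) = h2 e c s g := by
  simp only [b2, h2, eps, om, εv, ωv, εD, ωD, zero_add]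

theorem b3_h3 (c : G) (s : S) (g : G) : b3 (0, s, g) (1, e, c) = h3 e c s g := by
  simp only [b3, h3, ta, τv, τD]; ring

theorem b5_h5 (c : G) (s : S) (g : G) : b5 (0, s, g) (1, e, c) = h5 e c s g := by
  simp only [b5, h5, ka, κv, κD]

/-- data of `D = -d` at the primes `2, 3, 5` -/
theorem D_data (hsq : Squarefree m) (hm : m.Coprime 30) :
    εD e (cl m) = eZ (nb2 ((1, e, fun _ => 1) : W m)) ∧
    ωD e (cl m) = oZ (nb2 ((1, e, fun _ => 1) : W m)) ∧
    τD e (cl m) = tZ (nb3 ((1, e, fun _ => 1) : W m)) ∧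
    κD e (cl m) = kZ (nb5 ((1, e, fun _ => 1) : W m)) := by
  rw [← (eps_phi hm _).2, ← om_phi hm, ← (ta_phi hm _).2, ← (ka_phi hm _).2, fin3_D hsq hm]
  exact ⟨rfl, rfl, rfl, rfl⟩

theorem nb_D (hsq : Squarefree m) : nb ((1, e, fun _ => 1) : W m) = -((val e * m : ℕ) : ℤ) := by
  rw [← cast_val hsq e]
  unfold nb
  simp only [pw_one, pw_zero]
  ring

theorem nb_d2 (hsq : Squarefree m) (he : e.1 = 0) :
    nb2 ((1, e, fun _ => 1) : W m) = -((val e * m : ℕ) : ℤ) := by
  rw [← nb_D hsq, nb_two]
  simp only [he, pw_zero, one_mul]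

theorem nb3_neg : nb3 ((1, e, fun _ => 1) : W m) = (-1) * nb3 ((0, e, fun _ => 1) : W m) := by
  unfold nb3
  simp only [pw_one, pw_zero]
  ring

theorem nb5_neg : nb5 ((1, e, fun _ => 1) : W m) = (-1) * nb5 ((0, e, fun _ => 1) : W m) := by
  unfold nb5
  simp only [pw_one, pw_zero]
  ring

theorem chi_D (p : m.primeFactors) : chi m p (1, e, fun _ => 1) = (cl p).1 + chid e m p := by
  simp only [chi, chid, LinearMap.coe_mk, AddHom.coe_mk]
  ring

theorem hp_eq (p : m.primeFactors) (s : S) (x : m.primeFactors → ZMod 2) :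
    hp e m p (s, x) = chi m p (0, s, x) + x p * chid e m p := by
  simp only [chi, chid, hp, LinearMap.coe_mk, AddHom.coe_mk, zero_mul, zero_add, one_mul]

theorem prime_d {p : ℕ} (hp : p.Prime) (h : (p : ℤ) ∣ ((val e * m : ℕ) : ℤ)) :
    p = 2 ∨ p = 3 ∨ p = 5 ∨ p ∣ m := by
  rw [Int.natCast_dvd_natCast] at h
  rcases hp.dvd_mul.mp h with h | h
  · have h1 : p ∣ 2 * (3 * 5) := h.trans (val_dvd e)
    rcases hp.dvd_mul.mp h1 with h | h
    · exact Or.inl ((Nat.prime_dvd_prime_iff_eq hp Nat.prime_two).mp h)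
    rcases hp.dvd_mul.mp h with h | h
    · exact Or.inr (Or.inl ((Nat.prime_dvd_prime_iff_eq hp Nat.prime_three).mp h))
    · exact Or.inr (Or.inr (Or.inl ((Nat.prime_dvd_prime_iff_eq hp Nat.prime_five).mp h)))
  · exact Or.inr (Or.inr (Or.inr h))

/-- first descent: the class of `x` is in `V` -/
theorem first_mem (hsq : Squarefree m) (hm : m.Coprime 30) {b M E N d : ℤ}
    (hd : d = ((val e * m : ℕ) : ℤ)) (hb : Squarefree b) (hpos : 0 < b) (hME : IsCoprime M E)
    (hz : b * M ^ 2 - 20 * d * E ^ 2 ≠ 0)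
    (h : (b * M ^ 2 + (-16 * d) * E ^ 2) * (b * M ^ 2 + (-25 * d) * E ^ 2) = b * N ^ 2) :
    ∃ v ∈ V e m, b = nb ((0, v.1, v.2) : W m) := by
  have hprime : ∀ p : ℕ, p.Prime → (p : ℤ) ∣ b → p = 2 ∨ p = 5 ∨ (p : ℤ) ∣ d := by
    intro p hp hpb
    by_contra hcon
    push Not at hcon
    obtain ⟨n2, n5, nd⟩ := hcon
    have hp' := Nat.prime_iff_prime_int.mp hp
    apply prime_dvd_gen hp hb hME h hpb
    · intro h1
      rcases hp'.dvd_or_dvd h1 with h1 | h1
      · rw [Int.dvd_neg] at h1
        have h3 : p ∣ 2 ^ 4 := by exact_mod_cast h1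
        exact n2 ((Nat.prime_dvd_prime_iff_eq hp Nat.prime_two).mp (hp.dvd_of_dvd_pow h3))
      · exact nd h1
    · intro h1
      rcases hp'.dvd_or_dvd h1 with h1 | h1
      · rw [Int.dvd_neg] at h1
        have h3 : p ∣ 5 ^ 2 := by exact_mod_cast h1
        exact n5 ((Nat.prime_dvd_prime_iff_eq hp Nat.prime_five).mp (hp.dvd_of_dvd_pow h3))
      · exact nd h1
  obtain ⟨⟨t, s, x⟩, hu, hu1, hu2, hu3, hu5, huq⟩ := exists_rep hsq hm hb (fun p hp hpb => by
    rcases hprime p hp hpb with h1 | h1 | h1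
    · exact Or.inl h1
    · exact Or.inr (Or.inr (Or.inl h1))
    · rw [hd] at h1
      exact prime_d hp h1)
  have ht := hu1 hpos
  simp only at ht hu2 hu3 hu5 huq
  subst ht
  refine ⟨(s, x), ?_, hu⟩
  -- the norm equation
  have hsqr : (b * M ^ 2 - 20 * d * E ^ 2) ^ 2 = b * (N ^ 2 + d * (M * E) ^ 2) := by
    linear_combination h
  obtain ⟨Z, hZ⟩ : b ∣ b * M ^ 2 - 20 * d * E ^ 2 :=
    (hb.dvd_pow_iff_dvd two_ne_zero).mp ⟨_, hsqr⟩
  have hZ0 : Z ≠ 0 := by rintro rfl; exact hz (by rw [hZ]; ring)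
  have hb0 : b ≠ 0 := hb.ne_zero
  have hn : N ^ 2 + d * (M * E) ^ 2 = b * Z ^ 2 := by
    apply mul_left_cancel₀ hb0
    rw [← hsqr, hZ]; ring
  -- the primes of `m`
  have hloc : ∀ p : m.primeFactors, chi m p (0, s, x) + x p * chid e m p = 0 := by
    intro p
    have hpp := (prime_ne hm p).1
    have hA := addFn_l hpp
    obtain ⟨nδ, cδ⟩ := chi_phi hm p ((0, e, fun _ => 1) : W m)
    obtain ⟨nβ, cβ⟩ := chi_phi hm p ((0, s, x) : W m)
    have hdδ : d = ((p : ℕ) : ℤ) * nbp p ((0, e, fun _ => 1) : W m) := by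
      rw [hd, ← cast_val hsq e, nb_p p]
      rfl
    have hbβ := nb_p p ((0, s, x) : W m)
    rw [← hu] at hbβ
    rw [chid, cδ, cβ]
    rcases zc (x p) with h0 | h0
    · simp only [h0, pw_zero, one_mul] at hbβ
      rw [h0, zero_mul, add_zero]
      have := normA hpp hdδ nδ _ _ _ _ (le_refl _) hZ0 hn
      rw [hbβ] at this
      exact lZ_sq hpp nβ this
    · simp only [h0, pw_one] at hbβ
      rw [h0, one_mul, add_comm, ← hA.map_mul _ _ nδ nβ]
      exact lZ_sq hpp (hA.mul_mem _ _ nδ nβ) (normB hpp hbβ nβ hdδ nδ _ _ _ _ (le_refl _) hZ0 hn)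
  have hg : fin3 (phi m (0, s, x)) = (0, s, ∑ p, x p • cl p) := rfl
  obtain ⟨dE, dO, dT, dK⟩ := D_data (e := e) hsq hm
  -- the prime `3`
  have h3s : e.2.1 = 0 → s.2.1 = 0 := by
    intro he
    by_contra hcon
    have h1 : s.2.1 = 1 := (zc _).resolve_left hcon
    rcases hprime 3 Nat.prime_three (by exact_mod_cast hu3.mp h1) with h2 | h2 | h2
    · omega
    · omega
    · rw [hd, ← cast_val hsq e, nb_three] at h2
      simp only [he, pw_zero, one_mul] at h2
      have := (ta_phi hm ((0, e, fun _ => 1) : W m)).1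
      push_cast at h2
      omega
  have h3 : h3 e (cl m) s (∑ p, x p • cl p) = 0 := by
    rcases zc e.2.1 with he | he
    · rw [H509.h3, he, h3s he]; ring
    · have hA := addFn_t
      obtain ⟨nβ, cβ⟩ := ta_phi hm ((0, s, x) : W m)
      have nδ := (ta_phi hm ((0, e, fun _ => 1) : W m)).1
      have hdδ : d = ((3 : ℕ) : ℤ) * nb3 ((0, e, fun _ => 1) : W m) := by
        rw [hd, ← cast_val hsq e, nb_three]
        simp only [he, pw_one]
        rfl
      have hbβ := nb_three ((0, s, x) : W m)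
      rw [← hu] at hbβ
      have hτ : τv s (∑ p, x p • cl p) = tZ (nb3 ((0, s, x) : W m)) := by
        rw [← cβ, hg]
        simp only [ta, τv]; ring
      have nδ' : ¬ ((3 : ℕ) : ℤ) ∣ nb3 ((0, e, fun _ => 1) : W m) := by
        push_cast; omega
      have nβ' : ¬ ((3 : ℕ) : ℤ) ∣ nb3 ((0, s, x) : W m) := by
        push_cast; omega
      rw [H509.h3, hτ, dT, he, nb3_neg, hA.map_mul _ _ (by norm_num) nδ,
        show tZ (-1) = 1 from rfl]
      rcases zc s.2.1 with h0 | h0
      · simp only [h0, pw_zero, one_mul] at hbβ ⊢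
        have := normA Nat.prime_three hdδ nδ' _ _ _ _ (le_refl _) hZ0 hn
        rw [hbβ] at this
        rw [tZ_sq nβ' this]; ring
      · simp only [h0, pw_one] at hbβ ⊢
        have h4 := normB Nat.prime_three (by rw [hbβ]; rfl) nβ' hdδ nδ' _ _ _ _ (le_refl _) hZ0 hn
        have h5 := hA.map_mul _ _ nδ nβ
        rw [tZ_sq (ndvd_mul Nat.prime_three nδ' nβ') h4] at h5
        have h6 : (2 : ZMod 2) = 0 := by decide
        linear_combination h6 - h5
  -- the prime `5`
  have h5s : e.2.2 = 0 → κD e (cl m) = 1 → s.2.2 = 0 := by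
    intro he hk
    by_contra hcon
    have h1 : s.2.2 = 1 := (zc _).resolve_left hcon
    have nδ := (ka_phi hm ((1, e, fun _ => 1) : W m)).1
    have hD : nb5 ((1, e, fun _ => 1) : W m) = -d := by
      rw [hd, ← nb_D hsq, nb_five]
      simp only [he, pw_zero, one_mul]
    rw [hD] at nδ
    have h2 := five_adic_first hb hME (by push_cast; omega) h (by exact_mod_cast hu5.mp h1)
    rw [dK, hD, kZ_sq (a := -d) (by push_cast; omega) (by push_cast; exact h2)] at hk
    exact absurd hk (by decide)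
  have h5 : h5 e (cl m) s (∑ p, x p • cl p) = 0 := by
    rcases zc e.2.2 with he | he
    · rw [H509.h5, he]
      rcases zc (κD e (cl m)) with hk | hk
      · rw [hk]; ring
      · rw [h5s he hk]; ring
    · have hA := addFn_k
      obtain ⟨nβ, cβ⟩ := ka_phi hm ((0, s, x) : W m)
      have nδ := (ka_phi hm ((0, e, fun _ => 1) : W m)).1
      have hdδ : d = ((5 : ℕ) : ℤ) * nb5 ((0, e, fun _ => 1) : W m) := by
        rw [hd, ← cast_val hsq e, nb_five]
        simp only [he, pw_one]
        rfl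
      have hbβ := nb_five ((0, s, x) : W m)
      rw [← hu] at hbβ
      have hτ : κv s (∑ p, x p • cl p) = kZ (nb5 ((0, s, x) : W m)) := by
        rw [← cβ, hg]
        simp only [ka, κv]
      have nδ' : ¬ ((5 : ℕ) : ℤ) ∣ nb5 ((0, e, fun _ => 1) : W m) := by
        push_cast; omega
      have nβ' : ¬ ((5 : ℕ) : ℤ) ∣ nb5 ((0, s, x) : W m) := by
        push_cast; omega
      rw [H509.h5, hτ, dK, he, nb5_neg, hA.map_mul _ _ (by norm_num) nδ,
        show kZ (-1) = 0 from rfl]
      rcases zc s.2.2 with h0 | h0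
      · simp only [h0, pw_zero, one_mul] at hbβ ⊢
        have := normA Nat.prime_five hdδ nδ' _ _ _ _ (le_refl _) hZ0 hn
        rw [hbβ] at this
        rw [kZ_sq nβ' this]; ring
      · simp only [h0, pw_one] at hbβ ⊢
        have h4 := normB Nat.prime_five (by rw [hbβ]; rfl) nβ' hdδ nδ' _ _ _ _ (le_refl _) hZ0 hn
        have h5 := hA.map_mul _ _ nδ nβ
        rw [kZ_sq (ndvd_mul Nat.prime_five nδ' nβ') h4] at h5
        linear_combination -h5
  -- the prime `2`: product formula
  have h2 : h2 e (cl m) s (∑ p, x p • cl p) = 0 := by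
    have hi := iso hm ((0, s, x) : W m) ((1, e, fun _ => 1) : W m)
    unfold Bf at hi
    rw [fin3_D hsq hm, hg, b2_h2, b3_h3, b5_h5, h3, h5] at hi
    have hsum : (∑ p, ((((phi m) (0, s, x)).2.2 p).1 *
        (((phi m) (1, e, fun _ => 1)).2.2 p).2 +
        (((phi m) (1, e, fun _ => 1)).2.2 p).1 * (((phi m) (0, s, x)).2.2 p).2 +
        (((phi m) (0, s, x)).2.2 p).1 * (((phi m) (1, e, fun _ => 1)).2.2 p).1 * (cl p).1)) = 0 := by
      refine Finset.sum_eq_zero fun p _ => ?_
      have h6 := hloc p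
      have h7 : (2 : ZMod 2) = 0 := by decide
      simp only [phi, LinearMap.coe_mk, AddHom.coe_mk]
      rw [chi_D]
      linear_combination h6 + x p * (cl p).1 * h7
    rw [hsum, add_zero, add_zero, add_zero, show (phi m (0, s, x)).1 = 0 from rfl, zero_mul,
      zero_add] at hi
    exact hi
  refine ⟨?_, ?_⟩
  · rw [SetLike.mem_coe, Submodule.mem_iInf]
    intro p
    rw [LinearMap.mem_ker, hp_eq]
    exact hloc p
  · show inL e (cl m) s (∑ p, x p • cl p)
    unfold inL
    refine ⟨?_, ?_, ?_⟩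
    · split_ifs with hc
      · obtain ⟨he, hε⟩ := hc
        by_contra hcon
        have h1 : s.1 = 1 := (zc _).resolve_left hcon
        have hD := nb_d2 (e := e) hsq he
        rw [← hd] at hD
        have hodd := (eps_phi hm ((1, e, fun _ => 1) : W m)).1
        rw [dE, hD] at hε
        rw [hD] at hodd
        have h4 : d % 4 = 3 := by
          unfold eZ at hε
          split_ifs at hε with h6
          · exact absurd hε (by decide)
          · omega
        exact two_adic_first hb hME h4 h (hu2.mp h1)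
      · exact h2
    · split_ifs with hc hc'
      · exact h3
      · exact h3s ((zc _).resolve_right hc)
      · have he : e.2.1 = 0 := (zc _).resolve_right hc
        refine ⟨h3s he, ?_⟩
        obtain ⟨nβ, cβ⟩ := ta_phi hm ((0, s, x) : W m)
        have hbβ := nb_three ((0, s, x) : W m)
        rw [← hu] at hbβ
        simp only [h3s he, pw_zero, one_mul] at hbβ
        have hτ : τv s (∑ p, x p • cl p) = tZ (nb3 ((0, s, x) : W m)) := by
          rw [← cβ, hg]
          simp only [ta, τv]; ring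
        rw [hτ, ← hbβ]
        have hD : nb3 ((1, e, fun _ => 1) : W m) = -d := by
          rw [hd, ← nb_D hsq, nb_three]
          simp only [he, pw_zero, one_mul]
        have hτ1 : τD e (cl m) = 1 := (zc _).resolve_left hc'
        rw [dT, hD] at hτ1
        have h4 : d % 3 = 1 := by
          unfold tZ at hτ1
          split_ifs at hτ1 with h6
          · omega
          · exact absurd hτ1 (by decide)
        rw [← hbβ] at nβ
        have := first3 hME h4 nβ h
        unfold tZ
        rw [if_neg (by omega)]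
    · split_ifs with hc hc'
      · exact h5
      · exact h5s ((zc _).resolve_right hc) hc'

theorem eo_congr {a b : ℤ} (h : a % 8 = b % 8) : eZ a = eZ b ∧ oZ a = oZ b := by
  unfold eZ oZ
  rw [h, show a % 4 = b % 4 by omega]
  exact ⟨rfl, rfl⟩

theorem eo_one {a : ℤ} (h : a % 8 = 1) : eZ a = 0 ∧ oZ a = 0 := by
  obtain ⟨h1, h2⟩ := eo_congr (b := 1) (by rw [h]; norm_num)
  exact ⟨h1, h2⟩

theorem nb2_neg : nb2 ((1, e, fun _ => 1) : W m) = (-1) * nb2 ((0, e, fun _ => 1) : W m) := by
  unfold nb2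
  simp only [pw_one, pw_zero]
  ring

/-- second descent: the class of `X` is in `U` -/
theorem second_mem (hsq : Squarefree m) (hm : m.Coprime 30) {b M E N d : ℤ}
    (hd : d = ((val e * m : ℕ) : ℤ)) (hb : Squarefree b) (hME : IsCoprime M E)
    (h : (b * M ^ 2 + d * E ^ 2) * (b * M ^ 2 + 81 * d * E ^ 2) = b * N ^ 2) :
    ∃ u ∈ U e m, b = nb u := by
  have hprime : ∀ p : ℕ, p.Prime → (p : ℤ) ∣ b → p = 3 ∨ (p : ℤ) ∣ d := by
    intro p hp hpb
    by_contra hcon
    push Not at hcon
    obtain ⟨n3, nd⟩ := hcon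
    have hp' := Nat.prime_iff_prime_int.mp hp
    apply prime_dvd_gen hp hb hME h hpb nd
    intro h1
    rcases hp'.dvd_or_dvd h1 with h1 | h1
    · have h3 : p ∣ 3 ^ 4 := by exact_mod_cast h1
      exact n3 ((Nat.prime_dvd_prime_iff_eq hp Nat.prime_three).mp (hp.dvd_of_dvd_pow h3))
    · exact nd h1
  obtain ⟨u, hu, -, hu2, hu3, hu5, huq⟩ := exists_rep hsq hm hb (fun p hp hpb => by
    rcases hprime p hp hpb with h1 | h1
    · exact Or.inr (Or.inl h1)
    · rw [hd] at h1
      exact prime_d hp h1)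
  refine ⟨u, ?_, hu⟩
  have hloc : ∀ p : m.primeFactors, chi m p u + u.2.2 p * chid e m p + u.2.2 p * (cl p).1 = 0 := by
    intro p
    have hpp := (prime_ne hm p).1
    have hA := addFn_l hpp
    obtain ⟨nδ, cδ⟩ := chi_phi hm p ((0, e, fun _ => 1) : W m)
    obtain ⟨nβ, cβ⟩ := chi_phi hm p u
    have hdδ : d = ((p : ℕ) : ℤ) * nbp p ((0, e, fun _ => 1) : W m) := by
      rw [hd, ← cast_val hsq e, nb_p p]
      rfl
    have hbβ := nb_p p u
    rw [← hu] at hbβ
    rw [chid, cδ, cβ]
    rcases zc (u.2.2 p) with h0 | h0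
    · simp only [h0, pw_zero, one_mul] at hbβ
      rw [h0, zero_mul, zero_mul, add_zero, add_zero]
      have := sq_of_ndvd hpp hME h hdδ nδ (by rw [hbβ]; exact nβ)
      rw [hbβ] at this
      exact lZ_sq hpp nβ this
    · simp only [h0, pw_one] at hbβ
      have h1 := lZ_sq hpp (hA.mul_mem _ _ (ndvd_small hm p).1 (hA.mul_mem _ _ nδ nβ)) (by
        have := sq_of_dvd hpp hb hME h hdδ nδ hbβ
        convert this using 2
        ring)
      rw [hA.map_mul _ _ (ndvd_small hm p).1 (hA.mul_mem _ _ nδ nβ), hA.map_mul _ _ nδ nβ,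
        lZ_neg_one (by have := (mod_facts hm p).1; omega), ← cl_e] at h1
      rw [h0]
      linear_combination h1
  obtain ⟨dE, dO, dT, dK⟩ := D_data (e := e) hsq hm
  obtain ⟨n2, c2⟩ := eps_phi hm u
  have o2 := om_phi hm u
  obtain ⟨n3, c3⟩ := ta_phi hm u
  obtain ⟨n5, c5⟩ := ka_phi hm u
  obtain ⟨m2, -⟩ := eps_phi hm ((0, e, fun _ => 1) : W m)
  obtain ⟨m3, -⟩ := ta_phi hm ((0, e, fun _ => 1) : W m)
  obtain ⟨m5, -⟩ := ka_phi hm ((0, e, fun _ => 1) : W m)
  have e2 := nb_two u
  have e3 := nb_three u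
  have e5 := nb_five u
  rw [← hu] at e2 e3 e5
  have f2 := nb_two ((0, e, fun _ => 1) : W m)
  have f3 := nb_three ((0, e, fun _ => 1) : W m)
  have f5 := nb_five ((0, e, fun _ => 1) : W m)
  rw [cast_val hsq e, ← hd] at f2 f3 f5
  simp only at f2 f3 f5
  obtain ⟨k, hk⟩ : ∃ k, k = fin3 (phi m u) := ⟨_, rfl⟩
  have hk1 : k.2.1 = u.2.1 := by rw [hk]; rfl
  rw [← hk] at c2 o2 c3 c5
  have hl : ∀ (s' : S) (g' : G), inL e (cl m) s' g' →
      b2 (0, s', g') k = 0 ∧ b3 (0, s', g') k = 0 ∧ b5 (0, s', g') k = 0 := by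
    rintro s' g' ⟨l2, l3, l5⟩
    refine ⟨?_, ?_, ?_⟩
    · have hgoal : b2 (0, s', g') k = εv s' g' * eZ (nb2 u) + s'.1 * oZ (nb2 u) +
          u.2.1.1 * ωv s' g' := by
        rw [← c2, ← o2, ← hk1]
        simp only [b2, eps, om, εv, ωv]; ring
      rw [hgoal]
      rcases zc e.1 with he | he
      · simp only [he, pw_zero, one_mul] at f2
        have hu0 : u.2.1.1 = 0 := by
          by_contra hcon
          have h1 := hu2.mp ((zc _).resolve_left hcon)
          rcases hprime 2 Nat.prime_two (by exact_mod_cast h1) with h2 | h2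
          · omega
          · push_cast at h2
            omega
        simp only [hu0, pw_zero, one_mul] at e2
        rw [hu0, ← e2]
        have hD := nb_d2 (e := e) hsq he
        rw [← hd] at hD
        obtain ⟨hA, hB⟩ := two_adic_odd (d := d) hME (by omega) (by omega) h
        by_cases hε : εD e (cl m) = 0
        · rw [if_pos ⟨he, hε⟩] at l2
          rw [dE, hD] at hε
          have h4 : d % 4 = 3 := by
            unfold eZ at hε
            split_ifs at hε with h6
            · exact absurd hε (by decide)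
            · omega
          have h5 : eZ b = 0 := by
            unfold eZ
            rw [if_neg (by have := hA h4; omega)]
          rw [h5, l2]; ring
        · rw [if_neg (fun hc => hε hc.2)] at l2
          have hε1 : εD e (cl m) = 1 := (zc _).resolve_left hε
          rw [dE, hD] at hε1
          have h4 : d % 4 = 1 := by
            unfold eZ at hε1
            split_ifs at hε1 with h6
            · omega
            · exact absurd hε1 (by decide)
          rcases hB h4 with h5 | h5
          · rw [(eo_one h5).1, (eo_one h5).2]; ring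
          · obtain ⟨h6, h7⟩ := eo_congr (a := b) (b := -d) (by omega)
            rw [h6, h7, ← hD, ← dE, ← dO]
            rw [H509.h2, he] at l2
            linear_combination l2
      · rw [if_neg (fun hc => by rw [he] at hc; exact absurd hc.1 (by decide))] at l2
        simp only [he, pw_one] at f2
        have hD := nb2_neg (e := e) (m := m)
        rcases zc u.2.1.1 with hu0 | hu0
        · simp only [hu0, pw_zero, one_mul] at e2
          have h5 := two_adic_even hME (by omega) m2 f2 h
          rw [hu0, ← e2, (eo_one h5).1, (eo_one h5).2]; ring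
        · simp only [hu0, pw_one] at e2
          have h5 := two_adic_even' hME n2 m2 f2 e2 h
          obtain ⟨h6, h7⟩ := eo_congr (a := nb2 u) (b := nb2 ((1, e, fun _ => 1) : W m))
            (by rw [hD]; omega)
          rw [h6, h7, ← dE, ← dO, hu0]
          rw [H509.h2, he] at l2
          linear_combination l2
    · have hgoal : b3 (0, s', g') k = s'.2.1 * tZ (nb3 u) + u.2.1.2.1 * τv s' g' +
          s'.2.1 * u.2.1.2.1 := by
        rw [← c3, ← hk1]
        simp only [b3, ta, τv]; ring
      rw [hgoal]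
      have hA := addFn_t
      rcases zc e.2.1 with he | he
      · rw [if_neg (by rw [he]; decide)] at l3
        simp only [he, pw_zero, one_mul] at f3
        by_cases hτ : τD e (cl m) = 0
        · rw [if_pos hτ] at l3
          have hu0 : u.2.1.2.1 = 0 := by
            by_contra hcon
            have h1 := hu3.mp ((zc _).resolve_left hcon)
            have h2 := three_dvd (d := d) hb hME h (by exact_mod_cast h1) (by push_cast; omega)
            have h4 := (ZMod.intCast_eq_intCast_iff_dvd_sub d 1 3).mp (by exact_mod_cast h2)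
            push_cast at h4
            rw [dT, nb3_neg, ← f3] at hτ
            unfold tZ at hτ
            rw [if_pos (by omega)] at hτ
            exact absurd hτ (by decide)
          rw [l3, hu0]; ring
        · rw [if_neg hτ] at l3
          rw [l3.1, l3.2]; ring
      · rw [if_pos he, H509.h3, he, dT, nb3_neg, hA.map_mul _ _ (by norm_num) m3,
          show tZ (-1) = 1 from rfl] at l3
        simp only [he, pw_one] at f3
        have m3' : ¬ ((3 : ℕ) : ℤ) ∣ nb3 ((0, e, fun _ => 1) : W m) := by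
          push_cast; omega
        have n3' : ¬ ((3 : ℕ) : ℤ) ∣ nb3 u := by
          push_cast; omega
        rcases zc u.2.1.2.1 with hu0 | hu0
        · simp only [hu0, pw_zero, one_mul] at e3
          have h4 := sq_of_ndvd Nat.prime_three hME h (by rw [f3]; rfl) m3' (by rw [e3]; exact n3')
          rw [e3] at h4
          rw [hu0, tZ_sq n3' h4]; ring
        · simp only [hu0, pw_one] at e3
          have h4 := sq_of_dvd Nat.prime_three hb hME h (by rw [f3]; rfl) m3' (by rw [e3]; rfl)
          have n31 : ¬ ((3 : ℕ) : ℤ) ∣ -1 := by norm_num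
          have h5 := tZ_sq (ndvd_mul Nat.prime_three n31 (ndvd_mul Nat.prime_three m3' n3')) (by
            convert h4 using 2
            ring)
          rw [hA.map_mul _ _ (by norm_num) (hA.mul_mem _ _ m3 n3), hA.map_mul _ _ m3 n3,
            show tZ (-1) = 1 from rfl] at h5
          rw [hu0]
          have h6 : (2 : ZMod 2) = 0 := by decide
          linear_combination l3 + s'.2.1 * h5 -
            (s'.2.1 * tZ (nb3 ((0, e, fun _ => 1) : W m)) + s'.2.1) * h6
    · have hgoal : b5 (0, s', g') k = s'.2.2 * kZ (nb5 u) + u.2.1.2.2 * κv s' g' := by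
        rw [← c5, ← hk1]
        simp only [b5, ka, κv]
      rw [hgoal]
      have hA := addFn_k
      rcases zc e.2.2 with he | he
      · rw [if_neg (by rw [he]; decide)] at l5
        simp only [he, pw_zero, one_mul] at f5
        have hu0 : u.2.1.2.2 = 0 := by
          by_contra hcon
          have h1 := hu5.mp ((zc _).resolve_left hcon)
          rcases hprime 5 Nat.prime_five (by exact_mod_cast h1) with h2 | h2
          · omega
          · push_cast at h2
            omega
        simp only [hu0, pw_zero, one_mul] at e5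
        rw [hu0, ← e5]
        by_cases hκ : κD e (cl m) = 1
        · rw [if_pos hκ] at l5
          rw [l5]; ring
        · have hκ0 : κD e (cl m) = 0 := (zc _).resolve_right hκ
          rw [dK, nb5_neg, ← f5] at hκ0
          have hd5 : d % 5 = 1 ∨ d % 5 = 4 := by
            unfold kZ at hκ0
            split_ifs at hκ0 with h6
            · exact absurd hκ0 (by decide)
            · omega
          have h4 := second5 hME hd5 (by rw [e5]; exact n5) h
          unfold kZ
          rw [if_neg (by omega)]; ring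
      · rw [if_pos he, H509.h5, he, dK, nb5_neg, hA.map_mul _ _ (by norm_num) m5,
          show kZ (-1) = 0 from rfl] at l5
        simp only [he, pw_one] at f5
        have m5' : ¬ ((5 : ℕ) : ℤ) ∣ nb5 ((0, e, fun _ => 1) : W m) := by
          push_cast; omega
        have n5' : ¬ ((5 : ℕ) : ℤ) ∣ nb5 u := by
          push_cast; omega
        rcases zc u.2.1.2.2 with hu0 | hu0
        · simp only [hu0, pw_zero, one_mul] at e5
          have h4 := sq_of_ndvd Nat.prime_five hME h (by rw [f5]; rfl) m5' (by rw [e5]; exact n5')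
          rw [e5] at h4
          rw [hu0, kZ_sq n5' h4]; ring
        · simp only [hu0, pw_one] at e5
          have h4 := sq_of_dvd Nat.prime_five hb hME h (by rw [f5]; rfl) m5' (by rw [e5]; rfl)
          have n51 : ¬ ((5 : ℕ) : ℤ) ∣ -1 := by norm_num
          have h5 := kZ_sq (ndvd_mul Nat.prime_five n51 (ndvd_mul Nat.prime_five m5' n5')) (by
            convert h4 using 2
            ring)
          rw [hA.map_mul _ _ (by norm_num) (hA.mul_mem _ _ m5 n5), hA.map_mul _ _ m5 n5,
            show kZ (-1) = 0 from rfl] at h5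
          rw [hu0]
          have h6 : (2 : ZMod 2) = 0 := by decide
          linear_combination l5 + s'.2.2 * h5 -
            (s'.2.2 * kZ (nb5 ((0, e, fun _ => 1) : W m))) * h6
  rw [U, Submodule.mem_comap, LinearMap.BilinForm.mem_orthogonal_iff]
  rintro _ ⟨⟨⟨⟨s', g'⟩, hl'⟩, a⟩, rfl⟩
  obtain ⟨h2, h3, h5⟩ := hl s' g' hl'
  rw [B_apply]
  unfold Bf
  rw [← hk]
  have hsum : (∑ p, ((((psi e m) (⟨(s', g'), hl'⟩, a)).2.2 p).1 * ((phi m u).2.2 p).2 +
      ((phi m u).2.2 p).1 * (((psi e m) (⟨(s', g'), hl'⟩, a)).2.2 p).2 +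
      (((psi e m) (⟨(s', g'), hl'⟩, a)).2.2 p).1 * ((phi m u).2.2 p).1 * (cl p).1)) = 0 := by
    refine Finset.sum_eq_zero fun p _ => ?_
    have h6 := hloc p
    simp only [phi, psi, LinearMap.coe_mk, AddHom.coe_mk]
    linear_combination a p * h6
  rw [hsum, show fin3 ((psi e m) (⟨(s', g'), hl'⟩, a)) = (0, s', g') from rfl, h2, h3, h5,
    show ((psi e m) (⟨(s', g'), hl'⟩, a)).1 = 0 from rfl]
  ring

end

end Vale.Agent.P017.H49
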