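import Vale.Agent.P017.H509.Defs

/-!
# Duality of the two Selmer type groups
-/

namespace Vale.Agent.P017.H49

open Module Vale.Agent.P017.H509

/-- half of Poitou-Tate duality, as linear algebra -/
theorem dual_ineq {K W H : Type*} [Field K] [AddCommGroup W] [Module K W] [AddCommGroup H]
    [Module K H] [FiniteDimensional K W] [FiniteDimensional K H] (B : LinearMap.BilinForm K H)
    (hB : B.Nondegenerate) (φ : W →ₗ[K] H) (hφ : Function.Injective φ)
    (hiso : ∀ w w', B (φ w) (φ w') = 0) (hH : finrank K H = 2 * finrank K W)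
    (A : Submodule K H) (hA : finrank K A = finrank K W) :
    finrank K ((B.orthogonal A).comap φ) ≤ finrank K (A.comap φ) := by
  have h1 : ∀ X : Submodule K H, finrank K (X.comap φ) = finrank K ↥(LinearMap.range φ ⊓ X) := by
    intro X
    rw [(Submodule.equivMapOfInjective φ hφ (X.comap φ)).finrank_eq, Submodule.map_comap_eq]
  rw [h1, h1]
  have h2 : LinearMap.range φ ⊓ B.orthogonal A ≤ B.orthogonal (LinearMap.range φ ⊔ A) := by
    rintro x ⟨⟨w, rfl⟩, hx⟩ n hn
    obtain ⟨r, ⟨w', rfl⟩, a, ha, rfl⟩ := Submodule.mem_sup.mp hn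
    show B (φ w' + a) (φ w) = 0
    rw [map_add, LinearMap.add_apply, hiso, zero_add]
    exact hx a ha
  have h3 := Submodule.finrank_mono h2
  rw [LinearMap.BilinForm.finrank_orthogonal hB] at h3
  have h4 := Submodule.finrank_sup_add_finrank_inf_eq (LinearMap.range φ) A
  have h5 : finrank K (LinearMap.range φ) = finrank K W := LinearMap.finrank_range_of_inj hφ
  omega

section

variable (m : ℕ)

/-- square classes of `S`-units -/
abbrev W := ZMod 2 × S × (m.primeFactors → ZMod 2)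

/-- the sum of the local square class groups -/
abbrev H := ZMod 2 × (S × G) × (m.primeFactors → ZMod 2 × ZMod 2)

/-- the exponent of the symbol at `p` -/
def chi (p : m.primeFactors) : W m →ₗ[ZMod 2] ZMod 2 where
  toFun u := u.1 * (cl p).1 + pr u.2.1 (cl p) + ∑ q, if q = p then 0 else u.2.2 q * lg q p
  map_add' := by
    intro v w
    have h1 : (∑ q, if q = p then 0 else (v + w).2.2 q * lg q p) =
        (∑ q, if q = p then 0 else v.2.2 q * lg q p) +
          ∑ q, if q = p then 0 else w.2.2 q * lg q p := by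
      rw [← Finset.sum_add_distrib]
      refine Finset.sum_congr rfl fun q _ => ?_
      split_ifs
      · simp
      · simp only [Prod.snd_add, Pi.add_apply]; ring
    rw [h1]
    simp only [pr, Prod.fst_add, Prod.snd_add]
    ring
  map_smul' := by
    intro z v
    have : z = 0 ∨ z = 1 := by revert z; decide
    rcases this with rfl | rfl
    · simp [pr]
    · simp

/-- localisation -/
def phi : W m →ₗ[ZMod 2] H m where
  toFun u := (u.1, (u.2.1, ∑ p, u.2.2 p • cl p), fun p => (u.2.2 p, chi m p u))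
  map_add' := by
    intro v w
    simp only [Prod.fst_add, Prod.snd_add, Pi.add_apply, add_smul, Finset.sum_add_distrib,
      Prod.mk_add_mk, map_add]
    rfl
  map_smul' := by
    intro z v
    simp only [Prod.smul_fst, Prod.smul_snd, Pi.smul_apply, smul_assoc, ← Finset.smul_sum,
      RingHom.id_apply, Prod.smul_mk, map_smul]
    rfl

theorem phi_inj : Function.Injective (phi m) := by
  rintro ⟨t, s, x⟩ ⟨t', s', x'⟩ h
  simp only [phi, LinearMap.coe_mk, AddHom.coe_mk, Prod.mk.injEq] at h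
  obtain ⟨h1, ⟨h2, -⟩, h3⟩ := h
  have h4 : x = x' := by
    funext p
    exact (Prod.mk.inj (congrFun h3 p)).1
  rw [h1, h2, h4]

variable {m}

/-- unit class modulo `4` -/
def eps (h : ZMod 2 × S × G) : ZMod 2 := h.1 + h.2.1.2.1 + h.2.2.1
/-- unit class modulo `8` -/
def om (h : ZMod 2 × S × G) : ZMod 2 := h.2.1.2.1 + h.2.1.2.2 + h.2.2.2.1
/-- unit class modulo `3` -/
def ta (h : ZMod 2 × S × G) : ZMod 2 := h.1 + h.2.1.1 + h.2.1.2.2 + h.2.2.2.2.1
/-- unit class modulo `5` -/
def ka (h : ZMod 2 × S × G) : ZMod 2 := h.2.1.1 + h.2.1.2.1 + h.2.2.2.2.2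

/-- Hilbert symbol at `2` -/
def b2 (h k : ZMod 2 × S × G) : ZMod 2 := eps h * eps k + h.2.1.1 * om k + k.2.1.1 * om h
/-- Hilbert symbol at `3` -/
def b3 (h k : ZMod 2 × S × G) : ZMod 2 :=
  h.2.1.2.1 * ta k + k.2.1.2.1 * ta h + h.2.1.2.1 * k.2.1.2.1
/-- Hilbert symbol at `5` -/
def b5 (h k : ZMod 2 × S × G) : ZMod 2 := h.2.1.2.2 * ka k + k.2.1.2.2 * ka h

/-- the part at `2, 3, 5` -/
def fin3 (h : H m) : ZMod 2 × S × G := (h.1, h.2.1)

/-- the sum of the Hilbert symbols -/
def Bf (h k : H m) : ZMod 2 :=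
  h.1 * k.1 + b2 (fin3 h) (fin3 k) + b3 (fin3 h) (fin3 k) + b5 (fin3 h) (fin3 k) +
    ∑ p, ((h.2.2 p).1 * (k.2.2 p).2 + (k.2.2 p).1 * (h.2.2 p).2 +
      (h.2.2 p).1 * (k.2.2 p).1 * (cl p).1)

theorem Bf_symm (h k : H m) : Bf h k = Bf k h := by
  unfold Bf b2 b3 b5
  have : ∀ p : m.primeFactors, ((h.2.2 p).1 * (k.2.2 p).2 + (k.2.2 p).1 * (h.2.2 p).2 +
      (h.2.2 p).1 * (k.2.2 p).1 * (cl p).1) = ((k.2.2 p).1 * (h.2.2 p).2 +
        (h.2.2 p).1 * (k.2.2 p).2 + (k.2.2 p).1 * (h.2.2 p).1 * (cl p).1) := fun p => by ring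
  rw [Finset.sum_congr rfl fun p _ => this p]
  ring

theorem Bf_add (h h' k : H m) : Bf (h + h') k = Bf h k + Bf h' k := by
  unfold Bf b2 b3 b5 eps om ta ka fin3
  have : ∀ p : m.primeFactors, (((h + h').2.2 p).1 * (k.2.2 p).2 + (k.2.2 p).1 * ((h + h').2.2 p).2 +
      ((h + h').2.2 p).1 * (k.2.2 p).1 * (cl p).1) = ((h.2.2 p).1 * (k.2.2 p).2 +
        (k.2.2 p).1 * (h.2.2 p).2 + (h.2.2 p).1 * (k.2.2 p).1 * (cl p).1) +
        ((h'.2.2 p).1 * (k.2.2 p).2 +
        (k.2.2 p).1 * (h'.2.2 p).2 + (h'.2.2 p).1 * (k.2.2 p).1 * (cl p).1) := fun p => by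
    simp only [Prod.snd_add, Pi.add_apply, Prod.fst_add]; ring
  rw [Finset.sum_congr rfl fun p _ => this p, Finset.sum_add_distrib]
  simp only [Prod.fst_add, Prod.snd_add]
  ring

theorem Bf_smul (z : ZMod 2) (h k : H m) : Bf (z • h) k = z * Bf h k := by
  have : z = 0 ∨ z = 1 := by revert z; decide
  rcases this with rfl | rfl
  · rw [zero_smul, zero_mul]
    have := Bf_add (0 : H m) 0 k
    rw [add_zero] at this
    simpa using this
  · rw [one_smul, one_mul]

/-- the bilinear form -/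
def B (m : ℕ) : LinearMap.BilinForm (ZMod 2) (H m) :=
  LinearMap.mk₂ (ZMod 2) Bf Bf_add Bf_smul
    (fun h k k' => by rw [Bf_symm, Bf_add, Bf_symm k, Bf_symm k'])
    (fun z h k => by rw [Bf_symm, Bf_smul, Bf_symm]; rfl)

theorem B_apply (h k : H m) : B m h k = Bf h k := rfl

/-- the form at `2, 3, 5, ∞` -/
def b0 (h k : ZMod 2 × S × G) : ZMod 2 := h.1 * k.1 + b2 h k + b3 h k + b5 h k

theorem b0_nondeg_aux : ∀ h : ZMod 2 × S × G, b0 h (0, (0, 0, 0), (1, 0, 0, 0)) = 0 →
    b0 h (0, (0, 0, 0), (0, 1, 0, 0)) = 0 → b0 h (0, (0, 0, 0), (0, 0, 1, 0)) = 0 →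
    b0 h (0, (0, 0, 0), (0, 0, 0, 1)) = 0 → b0 h (1, (0, 0, 0), (0, 0, 0, 0)) = 0 →
    b0 h (0, (1, 0, 0), (0, 0, 0, 0)) = 0 → b0 h (0, (0, 1, 0), (0, 0, 0, 0)) = 0 →
    b0 h (0, (0, 0, 1), (0, 0, 0, 0)) = 0 → h = 0 := by decide +kernel

theorem B_nondeg : (B m).Nondegenerate := by
  have hl : (B m).SeparatingLeft := by
    intro h hk
    have h0 : fin3 h = 0 := by
      have key : ∀ k : ZMod 2 × S × G, b0 (fin3 h) k = 0 := by
        intro k
        have := hk (k.1, k.2, 0)
        rw [B_apply] at this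
        unfold Bf at this
        simpa [b0, fin3] using this
      exact b0_nondeg_aux _ (key _) (key _) (key _) (key _) (key _) (key _) (key _) (key _)
    have h1 : h.2.2 = 0 := by
      funext p
      have key : ∀ a : ZMod 2 × ZMod 2, (h.2.2 p).1 * a.2 + a.1 * (h.2.2 p).2 +
          (h.2.2 p).1 * a.1 * (cl p).1 = 0 := by
        intro a
        have := hk (0, 0, Pi.single p a)
        rw [B_apply] at this
        unfold Bf at this
        rw [Finset.sum_eq_single p] at this
        · simpa [fin3, b2, b3, b5, eps, om, ta, ka] using this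
        · intro q _ hq
          simp [Pi.single_eq_of_ne hq]
        · simp
      have k1 := key (0, 1)
      have k2 := key (1, 0)
      simp only [mul_one, zero_mul, mul_zero, add_zero] at k1
      simp only [mul_zero, one_mul, zero_add, mul_one, k1, zero_mul, add_zero] at k2
      exact Prod.ext k1 k2
    have h2 : h.1 = 0 := congrArg Prod.fst h0
    have h3 : h.2.1 = 0 := congrArg Prod.snd h0
    exact Prod.ext h2 (Prod.ext h3 h1)
  have hs : (B m).IsSymm := ⟨fun h k => by simp only [B_apply]; exact Bf_symm h k⟩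
  exact LinearMap.BilinForm.Nondegenerate.ofSeparatingLeft hl

end

end Vale.Agent.P017.H49
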