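import Vale.Agent.P017.H49.Dual

/-!
# Reciprocity: the `S`-units are isotropic
-/

namespace Vale.Agent.P017.H49

open Module Vale.Agent.P017.H509

theorem cl_fst (p : ℕ) : (cl p).1 = if p % 4 = 3 then 1 else 0 := rfl

theorem lg_recip {p q : ℕ} (hp : p.Prime) (hq : q.Prime) (hp2 : p ≠ 2) (hq2 : q ≠ 2)
    (hpq : p ≠ q) : lg q p + lg p q = (cl p).1 * (cl q).1 := by
  have hpo : Odd p := hp.odd_of_ne_two hp2
  have hqo : Odd q := hq.odd_of_ne_two hq2
  have hc : (q : ℤ).gcd p = 1 := by
    rw [Int.gcd_natCast_natCast]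
    exact (Nat.coprime_primes hq hp).mpr hpq.symm
  have hc' : (p : ℤ).gcd q = 1 := by
    rw [Int.gcd_natCast_natCast]
    exact (Nat.coprime_primes hp hq).mpr hpq
  have h1 := jacobiSym.eq_one_or_neg_one hc
  have h2 := jacobiSym.eq_one_or_neg_one hc'
  have h4p : p % 4 = 1 ∨ p % 4 = 3 := by
    have := Nat.odd_iff.mp hpo
    omega
  have h4q : q % 4 = 1 ∨ q % 4 = 3 := by
    have := Nat.odd_iff.mp hqo
    omega
  rw [cl_fst, cl_fst]
  unfold lg
  have one_add : (1 : ZMod 2) + 1 = 0 := by decide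
  rcases h4p with hp4 | hp4
  · have hr := jacobiSym.quadratic_reciprocity_one_mod_four hp4 hqo
    rw [hr, if_neg (show ¬ p % 4 = 3 by omega), zero_mul]
    split_ifs
    · exact one_add
    · simp
  · rcases h4q with hq4 | hq4
    · have hr := jacobiSym.quadratic_reciprocity_one_mod_four hq4 hpo
      rw [hr, if_neg (show ¬ q % 4 = 3 by omega), mul_zero]
      split_ifs
      · exact one_add
      · simp
    · have hr := jacobiSym.quadratic_reciprocity_three_mod_four hp4 hq4
      rw [hr, if_pos hp4, if_pos hq4]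
      rcases h1 with h1 | h1
      · rw [h1]; norm_num
      · rw [h1]; norm_num

variable {m : ℕ}

theorem sum_swap (x y : m.primeFactors → ZMod 2) (l : m.primeFactors → m.primeFactors → ZMod 2) :
    (∑ p, x p * ∑ q, if q = p then 0 else y q * l q p) =
      ∑ p, ∑ q, if q = p then 0 else x q * y p * l p q := by
  simp_rw [Finset.mul_sum]
  rw [Finset.sum_comm]
  refine Finset.sum_congr rfl fun p _ => Finset.sum_congr rfl fun q _ => ?_
  by_cases h : q = p
  · simp [h]
  · rw [if_neg (fun h' => h h'.symm), if_neg h]; ring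

theorem quad (hm : m.Coprime 30) (x y : m.primeFactors → ZMod 2) :
    (∑ p, x p * (cl p).1) * (∑ p, y p * (cl p).1) =
      (∑ p, x p * y p * (cl p).1) + (∑ p, x p * ∑ q, if q = p then 0 else y q * lg q p) +
        (∑ p, y p * ∑ q, if q = p then 0 else x q * lg q p) := by
  rw [sum_swap x y fun q p => lg q p]
  have h1 : (∑ p, y p * ∑ q, if q = p then 0 else x q * lg q p) =
      ∑ p, ∑ q, if q = p then 0 else x q * y p * lg q p := by
    simp_rw [Finset.mul_sum]
    refine Finset.sum_congr rfl fun p _ => Finset.sum_congr rfl fun q _ => ?_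
    split_ifs
    · simp
    · ring
  rw [h1, Finset.sum_mul_sum, add_assoc, ← Finset.sum_add_distrib, Finset.sum_comm]
  rw [← Finset.sum_add_distrib]
  refine Finset.sum_congr rfl fun p _ => ?_
  rw [← Finset.sum_add_distrib]
  have h2 : (∑ q, ((if q = p then 0 else x q * y p * lg p q) +
      if q = p then 0 else x q * y p * lg q p)) =
      ∑ q, if q = p then 0 else x q * (cl q).1 * (y p * (cl p).1) := by
    refine Finset.sum_congr rfl fun q _ => ?_
    by_cases h : q = p
    · simp [h]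
    · rw [if_neg h, if_neg h, if_neg h]
      have hq := Nat.prime_of_mem_primeFactors q.2
      have hp := Nat.prime_of_mem_primeFactors p.2
      have hne : ∀ r : m.primeFactors, (r : ℕ) ≠ 2 := by
        intro r h2
        have := Nat.dvd_of_mem_primeFactors r.2
        rw [h2] at this
        have h3 := Nat.Coprime.eq_one_of_dvd (Nat.Coprime.coprime_dvd_left this hm) (by norm_num)
        omega
      have := lg_recip hp hq (hne p) (hne q) (fun h' => h (Subtype.ext h'.symm))
      linear_combination (x q * y p) * this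
  rw [h2]
  have h3 : x p * y p * (cl p).1 = x p * (cl p).1 * (y p * (cl p).1) := by
    have : ∀ c : ZMod 2, c = c * c := by decide
    linear_combination (x p * y p) * this (cl p).1
  rw [h3, ← Finset.add_sum_erase Finset.univ _ (Finset.mem_univ p)]
  congr 1
  rw [← Finset.add_sum_erase Finset.univ (fun q => if q = p then 0 else
    x q * (cl q).1 * (y p * (cl p).1)) (Finset.mem_univ p)]
  rw [if_pos rfl, zero_add]
  refine Finset.sum_congr rfl fun q hq => ?_
  rw [if_neg (Finset.ne_of_mem_erase hq)]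

theorem sum_cl (x : m.primeFactors → ZMod 2) : (∑ p, x p • cl p) =
    (∑ p, x p * (cl p).1, ∑ p, x p * (cl p).2.1, ∑ p, x p * (cl p).2.2.1,
      ∑ p, x p * (cl p).2.2.2) := by
  refine Prod.ext ?_ (Prod.ext ?_ (Prod.ext ?_ ?_))
  · rw [Prod.fst_sum]; rfl
  · rw [Prod.snd_sum, Prod.fst_sum]; rfl
  · rw [Prod.snd_sum, Prod.snd_sum, Prod.fst_sum]; rfl
  · rw [Prod.snd_sum, Prod.snd_sum, Prod.snd_sum]; rfl

/-- **Reciprocity**: the sum of all Hilbert symbols vanishes -/
theorem iso (hm : m.Coprime 30) (u v : W m) : Bf (phi m u) (phi m v) = 0 := by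
  obtain ⟨t, ⟨s1, s2, s3⟩, x⟩ := u
  obtain ⟨t', ⟨s1', s2', s3'⟩, x'⟩ := v
  have hq := quad hm x x'
  have hsum : (∑ p, ((((phi m) (t, (s1, s2, s3), x)).2.2 p).1 *
      (((phi m) (t', (s1', s2', s3'), x')).2.2 p).2 +
      (((phi m) (t', (s1', s2', s3'), x')).2.2 p).1 * (((phi m) (t, (s1, s2, s3), x)).2.2 p).2 +
      (((phi m) (t, (s1, s2, s3), x)).2.2 p).1 *
      (((phi m) (t', (s1', s2', s3'), x')).2.2 p).1 * (cl p).1)) =
      (t' * ∑ p, x p * (cl p).1) + (s1' * ∑ p, x p * (cl p).2.1) +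
      (s2' * ((∑ p, x p * (cl p).2.2.1) + ∑ p, x p * (cl p).1)) +
      (s3' * ∑ p, x p * (cl p).2.2.2) +
      ((t * ∑ p, x' p * (cl p).1) + (s1 * ∑ p, x' p * (cl p).2.1) +
      (s2 * ((∑ p, x' p * (cl p).2.2.1) + ∑ p, x' p * (cl p).1)) +
      (s3 * ∑ p, x' p * (cl p).2.2.2)) +
      ((∑ p, x p * x' p * (cl p).1) + (∑ p, x p * ∑ q, if q = p then 0 else x' q * lg q p) +
        (∑ p, x' p * ∑ q, if q = p then 0 else x q * lg q p)) := by
    simp only [Finset.mul_sum, ← Finset.sum_add_distrib]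
    refine Finset.sum_congr rfl fun p _ => ?_
    simp only [phi, chi, pr, LinearMap.coe_mk, AddHom.coe_mk, ← Finset.mul_sum]
    ring
  unfold Bf
  rw [hsum, ← hq]
  simp only [phi, LinearMap.coe_mk, AddHom.coe_mk, sum_cl, fin3, b2, b3, b5, eps, om, ta, ka]
  generalize (∑ p, x p * (cl p).1) = E
  generalize (∑ p, x p * (cl p).2.1) = O
  generalize (∑ p, x p * (cl p).2.2.1) = T
  generalize (∑ p, x p * (cl p).2.2.2) = K
  generalize (∑ p, x' p * (cl p).1) = E'
  generalize (∑ p, x' p * (cl p).2.1) = O'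
  generalize (∑ p, x' p * (cl p).2.2.1) = T'
  generalize (∑ p, x' p * (cl p).2.2.2) = K'
  have h2 : (2 : ZMod 2) = 0 := by decide
  linear_combination (t * t' + t * s2' + t * E' + s2 * t' + s2 * s2' + s2 * E' + E * t' + E * s2' +
    E * E' + s1 * s2' + s1 * s3' + s1 * O' + s1' * s2 + s1' * s3 + s1' * O + s2 * s3' +
    s2 * T' + s2' * s3 + s2' * T + s3 * K' + s3' * K) * h2

end Vale.Agent.P017.H49
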