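import Vale.Agent.P017.H185.Loc3

/-!
# Further local conditions
-/

namespace Vale.Agent.P017.H49

open Vale.Agent.P017.H185

/-- norms from a ramified quadratic extension, unit case -/
theorem normA {p : ℕ} (hp : p.Prime) {b d δ : ℤ} (hd : d = p * δ)
    (hδ : ¬ (p : ℤ) ∣ δ) : ∀ (n : ℕ) (A B Z : ℤ), Z.natAbs ≤ n → Z ≠ 0 →
      A ^ 2 + d * B ^ 2 = b * Z ^ 2 → IsSquare (b : ZMod p) := by
  have hp' : Prime (p : ℤ) := Nat.prime_iff_prime_int.mp hp
  have := Fact.mk hp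
  intro n
  induction n with
  | zero =>
    intro A B Z hn hZ _
    exact absurd (Int.natAbs_eq_zero.mp (Nat.le_zero.mp hn)) hZ
  | succ n ih =>
    intro A B Z hn hZ h
    by_cases hpZ : (p : ℤ) ∣ Z
    · obtain ⟨Z', rfl⟩ := hpZ
      have hA : (p : ℤ) ∣ A := by
        apply hp'.dvd_of_dvd_pow (n := 2)
        refine ⟨b * p * Z' ^ 2 - δ * B ^ 2, ?_⟩
        rw [hd] at h
        linear_combination h
      obtain ⟨A', rfl⟩ := hA
      have h1 : δ * B ^ 2 = p * (b * Z' ^ 2 - A' ^ 2) := by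
        apply mul_left_cancel₀ hp'.ne_zero
        rw [hd] at h
        linear_combination h
      have hB : (p : ℤ) ∣ B := by
        rcases hp'.dvd_or_dvd (⟨_, h1⟩ : (p : ℤ) ∣ δ * B ^ 2) with h2 | h2
        · exact absurd h2 hδ
        · exact hp'.dvd_of_dvd_pow h2
      obtain ⟨B', rfl⟩ := hB
      have hZ' : Z' ≠ 0 := by rintro rfl; simp at hZ
      apply ih A' B' Z' _ hZ'
      · apply mul_left_cancel₀ hp'.ne_zero
        rw [hd]
        linear_combination h1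
      · rw [Int.natAbs_mul, Int.natAbs_natCast] at hn
        have h2 := hp.two_le
        have h3 : 0 < Z'.natAbs := Int.natAbs_pos.mpr hZ'
        nlinarith
    · have h8 := congrArg (Int.cast : ℤ → ZMod p) h
      push_cast [hd] at h8
      have hpp : (p : ZMod p) = 0 := by simp
      have hZ0 : (Z : ZMod p) ≠ 0 := ne_iff.mpr hpZ
      refine ⟨A / Z, ?_⟩
      rw [hpp] at h8
      field_simp
      linear_combination -h8

/-- norms from a ramified quadratic extension, the other case -/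
theorem normB {p : ℕ} (hp : p.Prime) {b d β δ : ℤ} (hb : b = p * β) (hβ : ¬ (p : ℤ) ∣ β)
    (hd : d = p * δ) (hδ : ¬ (p : ℤ) ∣ δ) : ∀ (n : ℕ) (A B Z : ℤ), Z.natAbs ≤ n → Z ≠ 0 →
      A ^ 2 + d * B ^ 2 = b * Z ^ 2 → IsSquare ((δ * β : ℤ) : ZMod p) := by
  have hp' : Prime (p : ℤ) := Nat.prime_iff_prime_int.mp hp
  have := Fact.mk hp
  intro n
  induction n with
  | zero =>
    intro A B Z hn hZ _
    exact absurd (Int.natAbs_eq_zero.mp (Nat.le_zero.mp hn)) hZ
  | succ n ih =>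
    intro A B Z hn hZ h
    have hA : (p : ℤ) ∣ A := by
      apply hp'.dvd_of_dvd_pow (n := 2)
      refine ⟨β * Z ^ 2 - δ * B ^ 2, ?_⟩
      rw [hd, hb] at h
      linear_combination h
    obtain ⟨A', rfl⟩ := hA
    have h1 : p * A' ^ 2 + δ * B ^ 2 = β * Z ^ 2 := by
      apply mul_left_cancel₀ hp'.ne_zero
      rw [hd, hb] at h
      linear_combination h
    by_cases hpZ : (p : ℤ) ∣ Z
    · obtain ⟨Z', rfl⟩ := hpZ
      have hB : (p : ℤ) ∣ B := by
        have h2 : (p : ℤ) ∣ δ * B ^ 2 := ⟨β * p * Z' ^ 2 - A' ^ 2, by linear_combination h1⟩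
        rcases hp'.dvd_or_dvd h2 with h2 | h2
        · exact absurd h2 hδ
        · exact hp'.dvd_of_dvd_pow h2
      obtain ⟨B', rfl⟩ := hB
      have hZ' : Z' ≠ 0 := by rintro rfl; simp at hZ
      apply ih A' B' Z' _ hZ'
      · apply mul_left_cancel₀ hp'.ne_zero
        rw [hd, hb]
        linear_combination h1
      · rw [Int.natAbs_mul, Int.natAbs_natCast] at hn
        have h2 := hp.two_le
        have h3 : 0 < Z'.natAbs := Int.natAbs_pos.mpr hZ'
        nlinarith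
    · have h8 := congrArg (Int.cast : ℤ → ZMod p) h1
      push_cast at h8
      have hpp : (p : ZMod p) = 0 := by simp
      have hZ0 : (Z : ZMod p) ≠ 0 := ne_iff.mpr hpZ
      have hβ0 : (β : ZMod p) ≠ 0 := ne_iff.mpr hβ
      rw [hpp] at h8
      have hB0 : (B : ZMod p) ≠ 0 := by
        intro h0
        rw [h0] at h8
        have : (β : ZMod p) * Z ^ 2 = 0 := by rw [← h8]; ring
        exact (mul_ne_zero hβ0 (pow_ne_zero 2 hZ0)) this
      refine ⟨β * Z / B, ?_⟩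
      push_cast
      field_simp
      linear_combination h8

theorem first3 {b d M e N : ℤ} (hMe : IsCoprime M e) (hd : d % 3 = 1) (hb : b % 3 ≠ 0)
    (h : (b * M ^ 2 + (-16 * d) * e ^ 2) * (b * M ^ 2 + (-25 * d) * e ^ 2) = b * N ^ 2) :
    b % 3 = 1 := by
  have key : ∀ b M e N : ZMod 3, b ≠ 0 → (M ≠ 0 ∨ e ≠ 0) →
      (b * M ^ 2 + (-16) * e ^ 2) * (b * M ^ 2 + (-25) * e ^ 2) = b * N ^ 2 → b = 1 := by decide
  have h8 := congrArg (Int.cast : ℤ → ZMod 3) h
  push_cast at h8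
  have hd1 : (d : ZMod 3) = 1 := by
    exact_mod_cast (ZMod.intCast_eq_intCast_iff_dvd_sub d 1 3).mpr (by push_cast; omega)
  rw [hd1, mul_one, mul_one] at h8
  have hb0 : (b : ZMod 3) ≠ 0 := ne_iff.mpr (by push_cast; omega)
  have hMe0 : (M : ZMod 3) ≠ 0 ∨ (e : ZMod 3) ≠ 0 := by
    by_cases he : ((3 : ℕ) : ℤ) ∣ e
    · left; exact ne_iff.mpr (cop_ndvd Nat.prime_three hMe he)
    · right; exact ne_iff.mpr he
  have h1 := key b M e N hb0 hMe0 h8
  have h3 := (ZMod.intCast_eq_intCast_iff_dvd_sub b 1 3).mp (by exact_mod_cast h1)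
  push_cast at h3
  omega

theorem second5 {b d M e N : ℤ} (hMe : IsCoprime M e) (hd : d % 5 = 1 ∨ d % 5 = 4)
    (hb : b % 5 ≠ 0)
    (h : (b * M ^ 2 + d * e ^ 2) * (b * M ^ 2 + 81 * d * e ^ 2) = b * N ^ 2) :
    b % 5 = 1 ∨ b % 5 = 4 := by
  have key : ∀ d b M e N : ZMod 5, (d = 1 ∨ d = 4) → b ≠ 0 → (M ≠ 0 ∨ e ≠ 0) →
      (b * M ^ 2 + d * e ^ 2) * (b * M ^ 2 + 81 * d * e ^ 2) = b * N ^ 2 → b = 1 ∨ b = 4 := by
    decide +kernel
  have h8 := congrArg (Int.cast : ℤ → ZMod 5) h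
  push_cast at h8
  have hd1 : (d : ZMod 5) = 1 ∨ (d : ZMod 5) = 4 := by
    rcases hd with hd | hd
    · left; exact_mod_cast (ZMod.intCast_eq_intCast_iff_dvd_sub d 1 5).mpr (by push_cast; omega)
    · right; exact_mod_cast (ZMod.intCast_eq_intCast_iff_dvd_sub d 4 5).mpr (by push_cast; omega)
  have hb0 : (b : ZMod 5) ≠ 0 := ne_iff.mpr (by push_cast; omega)
  have hMe0 : (M : ZMod 5) ≠ 0 ∨ (e : ZMod 5) ≠ 0 := by
    by_cases he : ((5 : ℕ) : ℤ) ∣ e
    · left; exact ne_iff.mpr (cop_ndvd Nat.prime_five hMe he)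
    · right; exact ne_iff.mpr he
  rcases key d b M e N hd1 hb0 hMe0 h8 with h1 | h1
  · left
    have h3 := (ZMod.intCast_eq_intCast_iff_dvd_sub b 1 5).mp (by exact_mod_cast h1)
    push_cast at h3
    omega
  · right
    have h3 := (ZMod.intCast_eq_intCast_iff_dvd_sub b 4 5).mp (by exact_mod_cast h1)
    push_cast at h3
    omega

end Vale.Agent.P017.H49
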