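import Vale.Agent.P017.H49.Desc4
import Vale.Agent.P017.H185.Main

/-!
# Finiteness from the minimality of `V`
-/

namespace Vale.Agent.P017.H49

open Module Vale.Agent.P017.H509 Vale.Agent.P017.H185

variable {m : ℕ} {e : S}

theorem inL_D : ∀ (e : S) (c : G), Good e c → inL e c e c := by decide +kernel

/-- the class of `d` is in `V` -/
theorem d_mem_V (hsq : Squarefree m) (hm : m.Coprime 30) (hg : Good e (cl m)) :
    ((e, fun _ => 1) : S × (m.primeFactors → ZMod 2)) ∈ V e m := by
  refine ⟨?_, ?_⟩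
  · rw [SetLike.mem_coe, Submodule.mem_iInf]
    intro p
    rw [LinearMap.mem_ker, hp_eq, chid]
    have hz : ∀ z : ZMod 2, z + 1 * z = 0 := by decide
    exact hz _
  · show inL e (cl m) e (∑ p : m.primeFactors, (1 : ZMod 2) • cl p)
    rw [sum_cl_m hsq hm]
    exact inL_D e _ hg

/-- the class of `-d` is in `U` -/
theorem D_mem_U (hsq : Squarefree m) (hm : m.Coprime 30) :
    ((1, e, fun _ => 1) : W m) ∈ U e m := by
  rw [U, Submodule.mem_comap, LinearMap.BilinForm.mem_orthogonal_iff]
  rintro _ ⟨⟨⟨⟨s', g'⟩, hl'⟩, a⟩, rfl⟩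
  rw [B_apply]
  unfold Bf
  have hsum : (∑ p, ((((psi e m) (⟨(s', g'), hl'⟩, a)).2.2 p).1 *
      ((phi m (1, e, fun _ => 1)).2.2 p).2 +
      ((phi m (1, e, fun _ => 1)).2.2 p).1 * (((psi e m) (⟨(s', g'), hl'⟩, a)).2.2 p).2 +
      (((psi e m) (⟨(s', g'), hl'⟩, a)).2.2 p).1 *
      ((phi m (1, e, fun _ => 1)).2.2 p).1 * (cl p).1)) = 0 := by
    refine Finset.sum_eq_zero fun p _ => ?_
    have h7 : (2 : ZMod 2) = 0 := by decide
    simp only [phi, psi, LinearMap.coe_mk, AddHom.coe_mk]
    rw [chi_D]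
    linear_combination (a p * (cl p).1 + a p * chid e m p) * h7
  have hl'' : inL e (cl m) s' g' := hl'
  obtain ⟨l2, l3, l5⟩ := hl''
  have h2 : H509.h2 e (cl m) s' g' = 0 := by
    split_ifs at l2 with hc
    · rw [H509.h2, hc.1, hc.2, l2]; ring
    · exact l2
  have h3 : H509.h3 e (cl m) s' g' = 0 := by
    split_ifs at l3 with hc hc'
    · exact l3
    · rw [H509.h3, (zc _).resolve_right hc, l3]; ring
    · rw [H509.h3, (zc _).resolve_right hc, l3.1]; ring
  have h5 : H509.h5 e (cl m) s' g' = 0 := by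
    split_ifs at l5 with hc hc'
    · exact l5
    · rw [H509.h5, (zc _).resolve_right hc, l5]; ring
    · rw [H509.h5, (zc _).resolve_right hc, (zc _).resolve_right hc']; ring
  rw [hsum, show fin3 ((psi e m) (⟨(s', g'), hl'⟩, a)) = (0, s', g') from rfl, fin3_D hsq hm,
    b2_h2, b3_h3, b5_h5, h2, h3, h5, show ((psi e m) (⟨(s', g'), hl'⟩, a)).1 = 0 from rfl]
  ring

/-- a group with at most two elements -/
theorem two_elt {α : Type*} [AddCommGroup α] [Finite α] (h : Nat.card α ≤ 2) {a : α} (ha : a ≠ 0)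
    (b : α) : b = 0 ∨ b = a := by
  classical
  by_contra hcon
  push Not at hcon
  have : Fintype α := Fintype.ofFinite α
  have h1 : ({0, a, b} : Finset α).card = 3 := by
    rw [Finset.card_insert_of_notMem, Finset.card_insert_of_notMem, Finset.card_singleton]
    · simpa using hcon.2.symm
    · simp only [Finset.mem_insert, Finset.mem_singleton, not_or]
      exact ⟨ha.symm, hcon.1.symm⟩
  have h2 := Finset.card_le_univ ({0, a, b} : Finset α)
  rw [Nat.card_eq_fintype_card] at h
  omega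

theorem nb_zero : nb (0 : W m) = 1 := by
  unfold nb pr0
  simp [pw]

/-- **Descent**: if `V` has two elements then the descent conditions hold for `d = val e * m`. -/
theorem cond_of_min (hsq : Squarefree m) (hm : m.Coprime 30) (hg : Good e (cl m))
    (hV : Nat.card (V e m) = 2) (h1 : val e * m ≠ 1) :
    Cond1 ((val e * m : ℕ) : ℚ) ∧ Cond2 ((val e * m : ℕ) : ℚ) := by
  have hdne : ((e, fun _ => 1) : S × (m.primeFactors → ZMod 2)) ≠ 0 := by
    intro h0
    apply h1
    have h2 := cast_val hsq e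
    have h3 : ((0, e, fun _ => 1) : W m) = 0 := by
      rw [show ((0, e, fun _ => 1) : W m) = (0, ((e, fun _ => 1) : S × (m.primeFactors → ZMod 2)))
        from rfl, h0]
      rfl
    rw [h3, nb_zero] at h2
    exact_mod_cast h2.symm
  have hdpos : 0 < val e * m := by
    refine Nat.mul_pos ?_ (Nat.pos_of_ne_zero hsq.ne_zero)
    exact Nat.pos_of_dvd_of_pos (val_dvd e) (by norm_num)
  have hU : Nat.card (U e m) ≤ 2 := (card_U_le hm hg).trans hV.le
  obtain ⟨D, hD⟩ : ∃ D : ℕ, D = val e * m := ⟨_, rfl⟩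
  rw [← hD] at hdpos ⊢
  refine ⟨?_, ?_⟩
  · intro x y h hx
    have hdQ : (0 : ℚ) < D := by exact_mod_cast hdpos
    have hx20 : x - 20 * D ≠ 0 := by
      intro h0
      have hx' : x = 20 * D := by linarith
      rw [hx'] at h
      have : y ^ 2 = -(400 * (D : ℚ) ^ 3) := by rw [h]; ring
      have h3 : 0 < (D : ℚ) ^ 3 := by positivity
      nlinarith [sq_nonneg y]
    have hxpos : 0 < x := by
      rcases lt_or_gt_of_ne hx with hneg | hpos
      · exfalso
        have h3 : 0 < (x - 16 * D) * (x - 25 * D) := by nlinarith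
        have h4 : y ^ 2 = x * ((x - 16 * D) * (x - 25 * D)) := by rw [h]; ring
        nlinarith [sq_nonneg y]
      · exact hpos
    obtain ⟨b, M, E, hb, hME, hM, hE, hXb⟩ := exists_sqf hx
    obtain ⟨N, hN⟩ := exists_int_eq (Y := y) (α := -16 * (D : ℤ)) (β := -25 * (D : ℤ)) hb hM hE hXb
      (by push_cast; rw [h]; ring)
    have hMQ : (M : ℚ) ≠ 0 := by exact_mod_cast hM
    have hEQ : (E : ℚ) ≠ 0 := by exact_mod_cast hE
    have hbpos : 0 < b := by
      have h3 : (0 : ℚ) < (M / E : ℚ) ^ 2 := by positivity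
      have h4 : (0 : ℚ) < b := by
        rw [hXb] at hxpos
        exact pos_of_mul_pos_left hxpos h3.le
      exact_mod_cast h4
    have hz : b * M ^ 2 - 20 * (D : ℤ) * E ^ 2 ≠ 0 := by
      intro h0
      apply hx20
      have h2 : (b : ℚ) * M ^ 2 - 20 * D * E ^ 2 = 0 := by exact_mod_cast h0
      rw [hXb]
      field_simp
      linear_combination h2
    obtain ⟨v, hv, hbv⟩ := first_mem (e := e) hsq hm (d := (D : ℤ)) (by rw [hD]) hb hbpos hME hz hN
    refine ⟨M / E, ?_⟩
    rcases two_elt hV.le (a := (⟨(e, fun _ => 1), d_mem_V hsq hm hg⟩ : V e m))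
      (fun h => hdne (congrArg Subtype.val h)) ⟨v, hv⟩ with h2 | h2
    · left
      have h3 : v = 0 := congrArg Subtype.val h2
      rw [h3] at hbv
      have h4 : b = 1 := by rw [hbv]; exact nb_zero
      rw [hXb, h4]; push_cast; ring
    · right
      have h3 : v = (e, fun _ => 1) := congrArg Subtype.val h2
      rw [h3] at hbv
      have h4 : b = (D : ℤ) := by rw [hbv, hD]; exact cast_val hsq e
      rw [hXb, h4]; push_cast; ring
  · intro X Y h hX
    obtain ⟨b, M, E, hb, hME, hM, hE, hXb⟩ := exists_sqf hX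
    obtain ⟨N, hN⟩ := exists_int_eq (Y := Y) (α := (D : ℤ)) (β := 81 * (D : ℤ)) hb hM hE hXb
      (by push_cast; rw [h])
    obtain ⟨u, hu, hbu⟩ := second_mem (e := e) hsq hm (d := (D : ℤ)) (by rw [hD]) hb hME hN
    refine ⟨M / E, ?_⟩
    have hne : (⟨(1, e, fun _ => 1), D_mem_U hsq hm⟩ : U e m) ≠ 0 := by
      intro h0
      have h3 := congrArg (fun z : U e m => z.1.1) h0
      exact absurd (show (1 : ZMod 2) = 0 from h3) (by decide)
    rcases two_elt hU hne ⟨u, hu⟩ with h2 | h2
    · left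
      have h3 : u = 0 := congrArg Subtype.val h2
      rw [h3, nb_zero] at hbu
      rw [hXb, hbu]; push_cast; ring
    · right
      have h3 : u = (1, e, fun _ => 1) := congrArg Subtype.val h2
      rw [h3, nb_D hsq, ← hD] at hbu
      rw [hXb, hbu]; push_cast; ring

/-- **Finiteness** of `X₀(15)(K)`, `K = ℚ(√-d)`, `d = val e * m`, if `V` has two elements -/
theorem finite_of_min (hsq : Squarefree m) (hm : m.Coprime 30) (hg : Good e (cl m))
    (hV : Nat.card (V e m) = 2) (h1 : val e * m ≠ 1) (K : Type*) [Field K] [NumberField K]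
    (q : QF K (val e * m)) : Finite (X015.baseChange K).toAffine.Point := by
  obtain ⟨c1, c2⟩ := cond_of_min hsq hm hg hV h1
  have hd0 : ((val e * m : ℕ) : ℚ) ≠ 0 := by exact_mod_cast q.d_pos.ne'
  exact finite_X015 K (finite_EK q finite_EQ' (finite_ED hd0 c1 c2))

end Vale.Agent.P017.H49
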