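import Vale.Agent.P017.H49.Chi
import Vale.Agent.P017.H49.Loc4

/-!
# Squarefree integers as vectors
-/

namespace Vale.Agent.P017.H49

open Module Vale.Agent.P017.H509

variable {m : ℕ}

/-- the natural number of a vector -/
def nP (s : S) (x : m.primeFactors → ZMod 2) : ℕ :=
  val s * ∏ q : m.primeFactors, if x q = 1 then (q : ℕ) else 1

theorem nb_eq (t : ZMod 2) (s : S) (x : m.primeFactors → ZMod 2) :
    nb (t, s, x) = pw t (-1) * (nP s x : ℤ) := by
  have h1 : (∏ q : m.primeFactors, if x q = 1 then ((q : ℕ) : ℤ) else 1) = pr0 x := rfl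
  unfold nb nP val
  push_cast
  rw [h1]
  unfold pw
  ring

theorem prod_dvd (hsq : Squarefree m) (x : m.primeFactors → ZMod 2) :
    (∏ q : m.primeFactors, if x q = 1 then (q : ℕ) else 1) ∣ m := by
  have h1 : (∏ q : m.primeFactors, if x q = 1 then (q : ℕ) else 1) ∣
      ∏ q : m.primeFactors, (q : ℕ) := by
    apply Finset.prod_dvd_prod_of_dvd
    intro q _
    split_ifs
    · exact dvd_rfl
    · exact one_dvd _
  refine h1.trans ?_
  rw [Finset.prod_coe_sort m.primeFactors (fun q => q), Nat.prod_primeFactors_of_squarefree hsq]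

theorem val_dvd : ∀ s : S, val s ∣ 30 := by decide

theorem nP_dvd (hsq : Squarefree m) (s : S) (x : m.primeFactors → ZMod 2) : nP s x ∣ 30 * m :=
  Nat.mul_dvd_mul (val_dvd s) (prod_dvd hsq x)

theorem sqf30m (hsq : Squarefree m) (hm : m.Coprime 30) : Squarefree (30 * m) := by
  rw [Nat.squarefree_mul hm.symm]
  refine ⟨?_, hsq⟩
  have h2 : (30 : ℕ) = 2 * (3 * 5) := by norm_num
  rw [h2, Nat.squarefree_mul (by norm_num), Nat.squarefree_mul (by norm_num)]
  exact ⟨Nat.prime_two.prime.squarefree, Nat.prime_three.prime.squarefree,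
    Nat.prime_five.prime.squarefree⟩

theorem nP_sqf (hsq : Squarefree m) (hm : m.Coprime 30) (s : S) (x : m.primeFactors → ZMod 2) :
    Squarefree (nP s x) := (sqf30m hsq hm).squarefree_of_dvd (nP_dvd hsq s x)

theorem dvd_nP {p : ℕ} (hp : p.Prime) (s : S) (x : m.primeFactors → ZMod 2) :
    p ∣ nP s x ↔ (p = 2 ∧ s.1 = 1) ∨ (p = 3 ∧ s.2.1 = 1) ∨ (p = 5 ∧ s.2.2 = 1) ∨
      ∃ q : m.primeFactors, x q = 1 ∧ p = q := by
  have hite : ∀ (c : Prop) [Decidable c] (q : ℕ), q.Prime → (p ∣ (if c then q else 1) ↔ p = q ∧ c) := by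
    intro c _ q hq
    by_cases h : c
    · rw [if_pos h, Nat.prime_dvd_prime_iff_eq hp hq]
      simp [h]
    · rw [if_neg h]
      simp [h, hp.ne_one]
  unfold nP val
  rw [hp.dvd_mul, hp.dvd_mul, hp.dvd_mul, hite _ 2 Nat.prime_two, hite _ 3 Nat.prime_three,
    hite _ 5 Nat.prime_five, hp.prime.dvd_finsetProd_iff]
  constructor
  · rintro (((h | h) | h) | ⟨q, -, hq⟩)
    · exact Or.inl h
    · exact Or.inr (Or.inl h)
    · exact Or.inr (Or.inr (Or.inl h))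
    · rw [hite _ _ (Nat.prime_of_mem_primeFactors q.2)] at hq
      exact Or.inr (Or.inr (Or.inr ⟨q, hq.2, hq.1⟩))
  · rintro (h | h | h | ⟨q, h1, h2⟩)
    · exact Or.inl (Or.inl (Or.inl h))
    · exact Or.inl (Or.inl (Or.inr h))
    · exact Or.inl (Or.inr h)
    · refine Or.inr ⟨q, Finset.mem_univ _, ?_⟩
      rw [hite _ _ (Nat.prime_of_mem_primeFactors q.2)]
      exact ⟨h2, h1⟩

theorem eq_of_sqf {a b : ℕ} (ha : Squarefree a) (hb : Squarefree b)
    (h : ∀ p : ℕ, p.Prime → (p ∣ a ↔ p ∣ b)) : a = b := by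
  rw [← Nat.prod_primeFactors_of_squarefree ha, ← Nat.prod_primeFactors_of_squarefree hb]
  congr 1
  ext p
  simp only [Nat.mem_primeFactors, ha.ne_zero, hb.ne_zero, ne_eq, not_false_eq_true, and_true]
  exact ⟨fun ⟨hp, h1⟩ => ⟨hp, (h p hp).mp h1⟩, fun ⟨hp, h1⟩ => ⟨hp, (h p hp).mpr h1⟩⟩

/-- every squarefree integer composed of `2, 3, 5` and the primes of `m` is a vector -/
theorem exists_rep (hsq : Squarefree m) (hm : m.Coprime 30) {b : ℤ} (hb : Squarefree b)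
    (hpr : ∀ p : ℕ, p.Prime → (p : ℤ) ∣ b → p = 2 ∨ p = 3 ∨ p = 5 ∨ p ∣ m) :
    ∃ u : W m, b = nb u ∧ (0 < b → u.1 = 0) ∧ (u.2.1.1 = 1 ↔ (2 : ℤ) ∣ b) ∧
      (u.2.1.2.1 = 1 ↔ (3 : ℤ) ∣ b) ∧ (u.2.1.2.2 = 1 ↔ (5 : ℤ) ∣ b) ∧
      ∀ q, u.2.2 q = 1 ↔ ((q : ℕ) : ℤ) ∣ b := by
  classical
  have h01 : ∀ (c : Prop) [Decidable c], ((if c then (1 : ZMod 2) else 0) = 1 ↔ c) := by
    intro c _
    split_ifs with h <;> simp [h]
  have habs : b.natAbs = nP (m := m) ((if (2 : ℤ) ∣ b then 1 else 0), (if (3 : ℤ) ∣ b then 1 else 0),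
      (if (5 : ℤ) ∣ b then 1 else 0)) (fun q => if ((q : ℕ) : ℤ) ∣ b then 1 else 0) := by
    apply eq_of_sqf (Int.squarefree_natAbs.mpr hb) (nP_sqf hsq hm _ _)
    intro p hp
    rw [dvd_nP hp]
    simp only [h01]
    rw [← Int.natCast_dvd]
    constructor
    · intro h
      rcases hpr p hp h with rfl | rfl | rfl | h1
      · exact Or.inl ⟨rfl, by exact_mod_cast h⟩
      · exact Or.inr (Or.inl ⟨rfl, by exact_mod_cast h⟩)
      · exact Or.inr (Or.inr (Or.inl ⟨rfl, by exact_mod_cast h⟩))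
      · refine Or.inr (Or.inr (Or.inr ⟨⟨p, ?_⟩, h, rfl⟩))
        exact Nat.mem_primeFactors.mpr ⟨hp, h1, hsq.ne_zero⟩
    · rintro (⟨rfl, h⟩ | ⟨rfl, h⟩ | ⟨rfl, h⟩ | ⟨q, h1, rfl⟩)
      · exact_mod_cast h
      · exact_mod_cast h
      · exact_mod_cast h
      · exact h1
  refine ⟨(if b < 0 then 1 else 0, ((if (2 : ℤ) ∣ b then 1 else 0), (if (3 : ℤ) ∣ b then 1 else 0),
      (if (5 : ℤ) ∣ b then 1 else 0)), fun q => if ((q : ℕ) : ℤ) ∣ b then 1 else 0), ?_, ?_, h01 _,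
      h01 _, h01 _, fun q => h01 _⟩
  · rw [nb_eq, ← habs]
    split_ifs with h
    · rw [pw_one]; omega
    · rw [pw_zero]; omega
  · intro h
    exact if_neg (by omega)

theorem cast_val (hsq : Squarefree m) (e : S) : nb ((0, e, fun _ => 1) : W m) = ((val e * m : ℕ) : ℤ) := by
  rw [nb_eq, pw_zero, one_mul]
  unfold nP
  simp only [if_pos]
  rw [Finset.prod_coe_sort m.primeFactors (fun q => q), Nat.prod_primeFactors_of_squarefree hsq]

theorem pr0_one (hsq : Squarefree m) : pr0 (fun _ : m.primeFactors => (1 : ZMod 2)) = (m : ℤ) := by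
  have h1 := cast_val hsq 0
  rw [show nb ((0, 0, fun _ => 1) : W m) = pr0 (fun _ : m.primeFactors => (1 : ZMod 2)) by
    unfold nb; simp [pw]] at h1
  rw [h1]
  simp [val]

theorem sum_cl_m (hsq : Squarefree m) (hm : m.Coprime 30) :
    (∑ p : m.primeFactors, (1 : ZMod 2) • cl p) = cl m := by
  have h0 := pr0_one hsq
  rw [sum_cl]
  refine Prod.ext ?_ (Prod.ext ?_ (Prod.ext ?_ ?_))
  · obtain ⟨-, h1⟩ := addFn_e.map_pr0 (fun _ : m.primeFactors => (1 : ZMod 2))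
      (fun q => (mod_facts hm q).1)
    simp only [cl_e]
    rw [← h1, h0]
  · obtain ⟨-, h1⟩ := addFn_o.map_pr0 (fun _ : m.primeFactors => (1 : ZMod 2))
      (fun q => (mod_facts hm q).1)
    simp only [cl_o]
    rw [← h1, h0]
  · obtain ⟨-, h1⟩ := addFn_t.map_pr0 (fun _ : m.primeFactors => (1 : ZMod 2))
      (fun q => (mod_facts hm q).2.1)
    simp only [cl_t]
    rw [← h1, h0]
  · obtain ⟨-, h1⟩ := addFn_k.map_pr0 (fun _ : m.primeFactors => (1 : ZMod 2))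
      (fun q => (mod_facts hm q).2.2)
    simp only [cl_k]
    rw [← h1, h0]

end Vale.Agent.P017.H49
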